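import Mathlib

/-! # The Chebyshev recursion (scalar facts) -/

namespace Vale.Agent.Lib.P368

/-- the Chebyshev recursion `T_0 = 1`, `T_1 = x`, `T_{k+2} = 2 x T_{k+1} - T_k` -/
noncomputable def cheb (x : ℝ) : ℕ → ℝ
  | 0 => 1
  | 1 => x
  | (k + 2) => 2 * x * cheb x (k + 1) - cheb x k

theorem cheb_zero (x : ℝ) : cheb x 0 = 1 := rfl

theorem cheb_one (x : ℝ) : cheb x 1 = x := rfl

theorem cheb_succ_succ (x : ℝ) (k : ℕ) :
    cheb x (k + 2) = 2 * x * cheb x (k + 1) - cheb x k := rfl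

/-- `T_k (cos t) = cos (k t)`, together with the next index (two-step induction). -/
theorem cheb_cos_aux (t : ℝ) (k : ℕ) :
    cheb (Real.cos t) k = Real.cos (k * t) ∧
      cheb (Real.cos t) (k + 1) = Real.cos ((k + 1 : ℕ) * t) := by
  induction k with
  | zero => simp [cheb_zero, cheb_one]
  | succ k ih =>
    refine ⟨ih.2, ?_⟩
    rw [cheb_succ_succ, ih.1, ih.2]
    have h1 : ((k + 1 + 1 : ℕ) : ℝ) * t = ((k + 1 : ℕ) : ℝ) * t + t := by
      push_cast; ring
    have h2 : (k : ℝ) * t = ((k + 1 : ℕ) : ℝ) * t - t := by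
      push_cast; ring
    rw [h1, h2, Real.cos_add, Real.cos_sub]
    ring

theorem cheb_cos (t : ℝ) (k : ℕ) : cheb (Real.cos t) k = Real.cos (k * t) :=
  (cheb_cos_aux t k).1

/-- bounded by one on `[-1, 1]`.  Plan: `x = cos t` (`t = Real.arccos x`), and
`cheb (cos t) k = cos (k * t)` by two-step induction. -/
theorem cheb_abs_le_one {x : ℝ} (hx : |x| ≤ 1) (k : ℕ) : |cheb x k| ≤ 1 := by
  have h := abs_le.mp hx
  have hc : Real.cos (Real.arccos x) = x := Real.cos_arccos h.1 h.2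
  rw [← hc, cheb_cos]
  exact Real.abs_cos_le_one _

/-- closed form for any `p, q` with `p + q = 2 x`, `p q = 1`. -/
theorem cheb_closed_aux {x p q : ℝ} (hs : p + q = 2 * x) (hp : p * q = 1) (k : ℕ) :
    cheb x k = (p ^ k + q ^ k) / 2 ∧ cheb x (k + 1) = (p ^ (k + 1) + q ^ (k + 1)) / 2 := by
  induction k with
  | zero =>
    refine ⟨by simp [cheb_zero], ?_⟩
    rw [cheb_one]; simp only [zero_add, pow_one]; linarith
  | succ k ih =>
    refine ⟨ih.2, ?_⟩
    rw [cheb_succ_succ, ih.1, ih.2, ← hs]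
    have e1 : p ^ (k + 1 + 1) = p * p ^ (k + 1) := by ring
    have e2 : q ^ (k + 1 + 1) = q * q ^ (k + 1) := by ring
    have e3 : q * p ^ (k + 1) = p ^ k := by
      calc q * p ^ (k + 1) = (p * q) * p ^ k := by ring
        _ = p ^ k := by rw [hp, one_mul]
    have e4 : p * q ^ (k + 1) = q ^ k := by
      calc p * q ^ (k + 1) = (p * q) * q ^ k := by ring
        _ = q ^ k := by rw [hp, one_mul]
    rw [e1, e2]
    have : (p + q) * ((p ^ (k + 1) + q ^ (k + 1)) / 2)
        = (p * p ^ (k + 1) + q * q ^ (k + 1) + (q * p ^ (k + 1) + p * q ^ (k + 1))) / 2 := by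
      ring
    rw [this, e3, e4]
    ring

/-- exponential growth outside `[-1, 1]`.  Plan: `x = 1 + d`, `s = sqrt (x ^ 2 - 1)`,
`p = x + s`, `q = x - s`, `p + q = 2 x`, `p * q = 1`, `0 ≤ q`; two-step induction gives
`cheb x k = (p ^ k + q ^ k) / 2`; and `1 + sqrt (2 d) ≤ p`. -/
theorem cheb_lower {d : ℝ} (hd : 0 ≤ d) (k : ℕ) :
    (1 + Real.sqrt (2 * d)) ^ k / 2 ≤ cheb (1 + d) k := by
  set x : ℝ := 1 + d with hx
  have hnn : 0 ≤ x ^ 2 - 1 := by rw [hx]; nlinarith
  set s : ℝ := Real.sqrt (x ^ 2 - 1) with hs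
  have hs2 : s * s = x ^ 2 - 1 := Real.mul_self_sqrt hnn
  have hs0 : 0 ≤ s := Real.sqrt_nonneg _
  have hsum : (x + s) + (x - s) = 2 * x := by ring
  have hprod : (x + s) * (x - s) = 1 := by
    have : (x + s) * (x - s) = x ^ 2 - s * s := by ring
    rw [this, hs2]; ring
  have hxpos : 0 < x + s := by rw [hx]; linarith
  have hq : 0 ≤ x - s := by
    by_contra hneg0
    have hneg : x - s < 0 := not_le.mp hneg0
    have : (x + s) * (x - s) < 0 := mul_neg_of_pos_of_neg hxpos hneg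
    linarith
  have hle : Real.sqrt (2 * d) ≤ s := by
    apply Real.sqrt_le_sqrt
    rw [hx]; nlinarith
  have hp : 1 + Real.sqrt (2 * d) ≤ x + s := by rw [hx]; linarith
  have h0 : 0 ≤ 1 + Real.sqrt (2 * d) := by
    have := Real.sqrt_nonneg (2 * d); linarith
  rw [(cheb_closed_aux hsum hprod k).1]
  have h1 : (1 + Real.sqrt (2 * d)) ^ k ≤ (x + s) ^ k := pow_le_pow_left₀ h0 hp k
  have h2 : 0 ≤ (x - s) ^ k := pow_nonneg hq k
  linarith

end Vale.Agent.Lib.P368
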