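import Vale.Agent.Lib.P368.D3.Cheb

/-! # The polynomial method for a conjunction of many tests (abstract form) -/

namespace Vale.Agent.Lib.P368

open Finset

/-- the weighted sum functional -/
noncomputable def caLL {Ω : Type} [Fintype Ω] (w : Ω → ℂ) (fr : Ω → ℝ) (f : Ω → ℝ) : ℂ :=
  ∑ ω, ((fr ω * f ω : ℝ) : ℂ) * w ω

theorem caLL_sub {Ω : Type} [Fintype Ω] (w : Ω → ℂ) (fr f f' : Ω → ℝ) :
    caLL w fr (fun ω => f ω - f' ω) = caLL w fr f - caLL w fr f' := by
  unfold caLL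
  rw [← Finset.sum_sub_distrib]
  refine Finset.sum_congr rfl fun ω _ => ?_
  push_cast
  ring

theorem caLL_smul {Ω : Type} [Fintype Ω] (w : Ω → ℂ) (fr f : Ω → ℝ) (c : ℝ) :
    caLL w fr (fun ω => c * f ω) = (c : ℂ) * caLL w fr f := by
  unfold caLL
  rw [Finset.mul_sum]
  refine Finset.sum_congr rfl fun ω _ => ?_
  push_cast
  ring

theorem caLL_sum {Ω κ : Type} [Fintype Ω] (w : Ω → ℂ) (fr : Ω → ℝ) (s : Finset κ)
    (F : κ → Ω → ℝ) :
    caLL w fr (fun ω => ∑ i ∈ s, F i ω) = ∑ i ∈ s, caLL w fr (F i) := by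
  unfold caLL
  rw [Finset.sum_comm]
  refine Finset.sum_congr rfl fun ω _ => ?_
  rw [Finset.mul_sum]
  push_cast
  rw [Finset.sum_mul]

theorem caLL_norm_le {Ω : Type} [Fintype Ω] (w : Ω → ℂ) (hw : ∑ ω, ‖w ω‖ ≤ 1) (fr : Ω → ℝ)
    (hfr : ∀ ω, fr ω = 0 ∨ fr ω = 1) (f : Ω → ℝ) (hf : ∀ ω, |f ω| ≤ 1) :
    ‖caLL w fr f‖ ≤ 1 := by
  unfold caLL
  refine le_trans (norm_sum_le _ _) (le_trans (Finset.sum_le_sum fun ω _ => ?_) hw)
  rw [norm_mul, Complex.norm_real, Real.norm_eq_abs, abs_mul]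
  have h1 : |fr ω| ≤ 1 := by rcases hfr ω with h | h <;> simp [h]
  have h2 : |fr ω| * |f ω| ≤ 1 := by
    calc |fr ω| * |f ω| ≤ 1 * 1 := mul_le_mul h1 (hf ω) (abs_nonneg _) zero_le_one
      _ = 1 := one_mul 1
  calc |fr ω| * |f ω| * ‖w ω‖ ≤ 1 * ‖w ω‖ := mul_le_mul_of_nonneg_right h2 (norm_nonneg _)
    _ = ‖w ω‖ := one_mul _

theorem ca_prod_insert {Ω κ : Type} [DecidableEq κ] (pass : κ → Ω → ℝ)
    (hpass : ∀ i ω, pass i ω = 0 ∨ pass i ω = 1) (i : κ) (T : Finset κ) (ω : Ω) :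
    ∏ j ∈ insert i T, pass j ω = (∏ j ∈ T, pass j ω) * pass i ω := by
  by_cases hi : i ∈ T
  · rw [Finset.insert_eq_of_mem hi, ← Finset.mul_prod_erase T (fun j => pass j ω) hi]
    have h2 : pass i ω * pass i ω = pass i ω := by rcases hpass i ω with h | h <;> simp [h]
    calc pass i ω * ∏ j ∈ T.erase i, pass j ω
        = (pass i ω * pass i ω) * ∏ j ∈ T.erase i, pass j ω := by rw [h2]
      _ = pass i ω * (∏ j ∈ T.erase i, pass j ω) * pass i ω := by ring
  · rw [Finset.prod_insert hi]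
    ring

/-- the affine statistic -/
noncomputable def caEll {Ω κ : Type} (pass : κ → Ω → ℝ) (G : Finset κ) (ω : Ω) : ℝ :=
  (2 * ∑ i ∈ G, pass i ω - ((G.card : ℝ) - 1)) / (G.card : ℝ)

theorem caLL_step {Ω κ : Type} [Fintype Ω] [DecidableEq κ] (w : Ω → ℂ) (fr : Ω → ℝ)
    (pass : κ → Ω → ℝ) (hpass : ∀ i ω, pass i ω = 0 ∨ pass i ω = 1)
    (G : Finset κ) (hM : 0 < G.card) (g : ℝ) (hg : 0 ≤ g) (f : Ω → ℝ) (c : ℝ) (hc : 0 ≤ c)
    (hf : ∀ T ⊆ G, ‖caLL w fr (fun ω => (∏ i ∈ T, pass i ω) * f ω)‖ ≤ c * 9 ^ T.card * g) :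
    ∀ T ⊆ G, ‖caLL w fr (fun ω => (∏ i ∈ T, pass i ω) * (caEll pass G ω * f ω))‖
      ≤ 19 * c * 9 ^ T.card * g := by
  intro T hTG
  have hMr : (0 : ℝ) < (G.card : ℝ) := by exact_mod_cast hM
  have hM1 : (1 : ℝ) ≤ (G.card : ℝ) := by exact_mod_cast hM
  have hfun : (fun ω => (∏ i ∈ T, pass i ω) * (caEll pass G ω * f ω))
      = fun ω => (2 / (G.card : ℝ)) * (∑ i ∈ G, (∏ j ∈ insert i T, pass j ω) * f ω)
          - (((G.card : ℝ) - 1) / (G.card : ℝ)) * ((∏ i ∈ T, pass i ω) * f ω) := by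
    funext ω
    have h1 : ∑ i ∈ G, (∏ j ∈ insert i T, pass j ω) * f ω
        = (∏ j ∈ T, pass j ω) * f ω * ∑ i ∈ G, pass i ω := by
      rw [Finset.mul_sum]
      refine Finset.sum_congr rfl fun i _ => ?_
      rw [ca_prod_insert pass hpass]
      ring
    rw [h1]
    unfold caEll
    field_simp
  rw [hfun, caLL_sub, caLL_smul, caLL_smul, caLL_sum]
  have hb1 : ‖∑ i ∈ G, caLL w fr (fun ω => (∏ j ∈ insert i T, pass j ω) * f ω)‖
      ≤ (G.card : ℝ) * (c * 9 ^ (T.card + 1) * g) := by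
    refine le_trans (norm_sum_le _ _) ?_
    rw [← nsmul_eq_mul]
    refine Finset.sum_le_card_nsmul _ _ _ fun i hi => ?_
    refine le_trans (hf (insert i T) (Finset.insert_subset hi hTG)) ?_
    have h9 : (9 : ℝ) ^ (insert i T).card ≤ 9 ^ (T.card + 1) :=
      pow_le_pow_right₀ (by norm_num) (Finset.card_insert_le i T)
    exact mul_le_mul_of_nonneg_right (mul_le_mul_of_nonneg_left h9 hc) hg
  have hb2 := hf T hTG
  have hn1 : ‖((2 / (G.card : ℝ) : ℝ) : ℂ)‖ = 2 / (G.card : ℝ) := by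
    rw [Complex.norm_real, Real.norm_eq_abs, abs_of_nonneg (by positivity)]
  have hq0 : 0 ≤ ((G.card : ℝ) - 1) / (G.card : ℝ) := div_nonneg (by linarith) hMr.le
  have hq1 : ((G.card : ℝ) - 1) / (G.card : ℝ) ≤ 1 := by
    rw [div_le_one hMr]
    linarith
  have hn2 : ‖((((G.card : ℝ) - 1) / (G.card : ℝ) : ℝ) : ℂ)‖ = ((G.card : ℝ) - 1) / (G.card : ℝ) := by
    rw [Complex.norm_real, Real.norm_eq_abs, abs_of_nonneg hq0]
  have hX : 0 ≤ c * 9 ^ T.card * g := by positivity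
  calc ‖((2 / (G.card : ℝ) : ℝ) : ℂ) *
          ∑ i ∈ G, caLL w fr (fun ω => (∏ j ∈ insert i T, pass j ω) * f ω)
        - ((((G.card : ℝ) - 1) / (G.card : ℝ) : ℝ) : ℂ) *
          caLL w fr (fun ω => (∏ i ∈ T, pass i ω) * f ω)‖
      ≤ ‖((2 / (G.card : ℝ) : ℝ) : ℂ) *
          ∑ i ∈ G, caLL w fr (fun ω => (∏ j ∈ insert i T, pass j ω) * f ω)‖
        + ‖((((G.card : ℝ) - 1) / (G.card : ℝ) : ℝ) : ℂ) *
          caLL w fr (fun ω => (∏ i ∈ T, pass i ω) * f ω)‖ := norm_sub_le _ _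
    _ ≤ (2 / (G.card : ℝ)) * ((G.card : ℝ) * (c * 9 ^ (T.card + 1) * g))
        + 1 * (c * 9 ^ T.card * g) := by
        rw [norm_mul, norm_mul, hn1, hn2]
        refine add_le_add (mul_le_mul_of_nonneg_left hb1 (by positivity)) ?_
        exact mul_le_mul hq1 hb2 (norm_nonneg _) zero_le_one
    _ = 19 * c * 9 ^ T.card * g := by
        rw [pow_succ]
        field_simp
        ring

theorem cheb_one_arg (k : ℕ) : cheb 1 k = 1 ∧ cheb 1 (k + 1) = 1 := by
  induction k with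
  | zero => exact ⟨rfl, rfl⟩
  | succ k ih =>
    refine ⟨ih.2, ?_⟩
    rw [cheb_succ_succ, ih.1, ih.2]
    norm_num

/-- Let `w` be complex weights of total mass at most one on a finite set, `fr` and `pass i`
(`i ∈ G`) zero-one functions.  If the weighted sum of `fr * ∏_{i ∈ T} pass i` is at most
`9 ^ |T| * g` for every `T ⊆ G`, then the weighted sum of the full conjunction is at most
`(1 + 39 ^ k * g) / T_k (1 + 1 / |G|)` for every `k`. -/
theorem cheb_and {Ω κ : Type} [Fintype Ω] [DecidableEq κ] (w : Ω → ℂ)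
    (hw : ∑ ω, ‖w ω‖ ≤ 1) (fr : Ω → ℝ) (hfr : ∀ ω, fr ω = 0 ∨ fr ω = 1)
    (pass : κ → Ω → ℝ) (hpass : ∀ i ω, pass i ω = 0 ∨ pass i ω = 1)
    (G : Finset κ) (g : ℝ) (hg : 0 ≤ g)
    (hT : ∀ T ⊆ G, ‖∑ ω, ((fr ω * ∏ i ∈ T, pass i ω : ℝ) : ℂ) * w ω‖ ≤ 9 ^ T.card * g)
    (k : ℕ) :
    ‖∑ ω, ((fr ω * ∏ i ∈ G, pass i ω : ℝ) : ℂ) * w ω‖ * cheb (1 + 1 / (G.card : ℝ)) k
      ≤ 1 + 39 ^ k * g := by
  have h39 : (1 : ℝ) ≤ 39 ^ k := one_le_pow₀ (by norm_num)
  rcases Nat.eq_zero_or_pos G.card with hM0 | hM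
  · have h1 := hT G (Finset.Subset.refl G)
    rw [hM0] at h1 ⊢
    simp only [Nat.cast_zero, div_zero, add_zero, pow_zero, one_mul] at h1 ⊢
    rw [(cheb_one_arg k).1, mul_one]
    nlinarith
  have hMr : (0 : ℝ) < (G.card : ℝ) := by exact_mod_cast hM
  have hM1 : (1 : ℝ) ≤ (G.card : ℝ) := by exact_mod_cast hM
  -- (c) the two-step induction
  have hind : ∀ k : ℕ,
      (∀ T ⊆ G, ‖caLL w fr (fun ω => (∏ i ∈ T, pass i ω) * cheb (caEll pass G ω) k)‖
        ≤ 39 ^ k * 9 ^ T.card * g) ∧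
      (∀ T ⊆ G, ‖caLL w fr (fun ω => (∏ i ∈ T, pass i ω) * cheb (caEll pass G ω) (k + 1))‖
        ≤ 39 ^ (k + 1) * 9 ^ T.card * g) := by
    intro k
    induction k with
    | zero =>
      have h0 : ∀ T ⊆ G, ‖caLL w fr (fun ω => (∏ i ∈ T, pass i ω) * (fun _ => (1 : ℝ)) ω)‖
          ≤ 1 * 9 ^ T.card * g := by
        intro T hTG
        have := hT T hTG
        simpa [caLL] using this
      refine ⟨?_, ?_⟩
      · intro T hTG
        have := h0 T hTG
        simpa [cheb_zero] using this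
      · intro T hTG
        have := caLL_step w fr pass hpass G hM g hg (fun _ => 1) 1 zero_le_one h0 T hTG
        have hX : 0 ≤ (9 : ℝ) ^ T.card * g := by positivity
        simp only [mul_one, zero_add, cheb_one, pow_one] at this ⊢
        nlinarith
    | succ k ih =>
      refine ⟨ih.2, ?_⟩
      intro T hTG
      have hs := caLL_step w fr pass hpass G hM g hg (fun ω => cheb (caEll pass G ω) (k + 1))
        (39 ^ (k + 1)) (by positivity) ih.2 T hTG
      have h0 := ih.1 T hTG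
      have hfun : (fun ω => (∏ i ∈ T, pass i ω) * cheb (caEll pass G ω) (k + 1 + 1))
          = fun ω => 2 * ((∏ i ∈ T, pass i ω) *
              (caEll pass G ω * cheb (caEll pass G ω) (k + 1)))
            - (∏ i ∈ T, pass i ω) * cheb (caEll pass G ω) k := by
        funext ω
        rw [cheb_succ_succ]
        ring
      rw [hfun, caLL_sub, caLL_smul]
      have hX : 0 ≤ (39 : ℝ) ^ k * 9 ^ T.card * g := by positivity
      have hn : ‖((2 : ℝ) : ℂ)‖ = 2 := by
        rw [Complex.norm_real]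
        norm_num
      calc ‖((2 : ℝ) : ℂ) * caLL w fr (fun ω => (∏ i ∈ T, pass i ω) *
              (caEll pass G ω * cheb (caEll pass G ω) (k + 1)))
            - caLL w fr (fun ω => (∏ i ∈ T, pass i ω) * cheb (caEll pass G ω) k)‖
          ≤ ‖((2 : ℝ) : ℂ) * caLL w fr (fun ω => (∏ i ∈ T, pass i ω) *
              (caEll pass G ω * cheb (caEll pass G ω) (k + 1)))‖
            + ‖caLL w fr (fun ω => (∏ i ∈ T, pass i ω) * cheb (caEll pass G ω) k)‖ :=
            norm_sub_le _ _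
        _ ≤ 2 * (19 * 39 ^ (k + 1) * 9 ^ T.card * g) + 39 ^ k * 9 ^ T.card * g := by
            rw [norm_mul, hn]
            exact add_le_add (mul_le_mul_of_nonneg_left hs (by norm_num)) h0
        _ = 1483 * (39 ^ k * 9 ^ T.card * g) := by
            rw [pow_succ]
            ring
        _ ≤ 1521 * (39 ^ k * 9 ^ T.card * g) :=
            mul_le_mul_of_nonneg_right (by norm_num) hX
        _ = 39 ^ (k + 1 + 1) * 9 ^ T.card * g := by
            rw [pow_succ, pow_succ]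
            ring
  -- take T = ∅
  have hc := (hind k).1 ∅ (Finset.empty_subset G)
  simp only [Finset.prod_empty, one_mul, Finset.card_empty, pow_zero, mul_one] at hc
  -- (d) the pointwise decomposition
  set C : ℝ := cheb (1 + 1 / (G.card : ℝ)) k with hC
  have hC0 : 0 ≤ C := by
    have h1 := cheb_lower (d := 1 / (G.card : ℝ)) (by positivity) k
    have h2 : 0 ≤ (1 + Real.sqrt (2 * (1 / (G.card : ℝ)))) ^ k / 2 := by positivity
    exact le_trans h2 h1
  have hrest : ∀ ω, |cheb (caEll pass G ω) k - C * ∏ i ∈ G, pass i ω| ≤ 1 := by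
    intro ω
    by_cases hall : ∀ i ∈ G, pass i ω = 1
    · have h1 : ∏ i ∈ G, pass i ω = 1 := Finset.prod_eq_one hall
      have h2 : ∑ i ∈ G, pass i ω = (G.card : ℝ) := by
        rw [Finset.sum_congr rfl hall]
        simp
      have h3 : caEll pass G ω = 1 + 1 / (G.card : ℝ) := by
        unfold caEll
        rw [h2]
        field_simp
        ring
      rw [h1, h3, hC]
      simp
    · push Not at hall
      obtain ⟨i, hi, hne⟩ := hall
      have hi0 : pass i ω = 0 := by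
        rcases hpass i ω with h | h
        · exact h
        · exact absurd h hne
      have h1 : ∏ i ∈ G, pass i ω = 0 := Finset.prod_eq_zero hi hi0
      have hlo : 0 ≤ ∑ j ∈ G, pass j ω := Finset.sum_nonneg fun j _ => by
        rcases hpass j ω with h | h <;> simp [h]
      have hhi : ∑ j ∈ G, pass j ω ≤ (G.card : ℝ) - 1 := by
        rw [← Finset.add_sum_erase G (fun j => pass j ω) hi, hi0, zero_add]
        have h5 : ∑ j ∈ G.erase i, pass j ω ≤ ((G.erase i).card : ℝ) * 1 := by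
          rw [← nsmul_eq_mul]
          refine Finset.sum_le_card_nsmul _ _ _ fun j _ => ?_
          rcases hpass j ω with h | h <;> simp [h]
        rw [Finset.card_erase_of_mem hi, mul_one, Nat.cast_sub hM, Nat.cast_one] at h5
        exact h5
      have h3 : |caEll pass G ω| ≤ 1 := by
        unfold caEll
        rw [abs_le]
        constructor
        · rw [le_div_iff₀ hMr]
          linarith
        · rw [div_le_iff₀ hMr]
          linarith
      rw [h1, mul_zero, sub_zero]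
      exact cheb_abs_le_one h3 k
  have hr := caLL_norm_le w hw fr hfr _ hrest
  rw [caLL_sub, caLL_smul] at hr
  have hgoal : ‖∑ ω, ((fr ω * ∏ i ∈ G, pass i ω : ℝ) : ℂ) * w ω‖ * C
      = ‖(C : ℂ) * caLL w fr (fun ω => ∏ i ∈ G, pass i ω)‖ := by
    rw [norm_mul, Complex.norm_real, Real.norm_eq_abs, abs_of_nonneg hC0, mul_comm]
    rfl
  rw [hgoal]
  calc ‖(C : ℂ) * caLL w fr (fun ω => ∏ i ∈ G, pass i ω)‖
      = ‖caLL w fr (fun ω => cheb (caEll pass G ω) k)
          - (caLL w fr (fun ω => cheb (caEll pass G ω) k)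
            - (C : ℂ) * caLL w fr (fun ω => ∏ i ∈ G, pass i ω))‖ := by
        rw [sub_sub_cancel]
    _ ≤ ‖caLL w fr (fun ω => cheb (caEll pass G ω) k)‖
          + ‖caLL w fr (fun ω => cheb (caEll pass G ω) k)
            - (C : ℂ) * caLL w fr (fun ω => ∏ i ∈ G, pass i ω)‖ := norm_sub_le _ _
    _ ≤ 39 ^ k * g + 1 := add_le_add hc hr
    _ = 1 + 39 ^ k * g := add_comm _ _

end Vale.Agent.Lib.P368
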