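import Vale.Agent.Lib.P368.D3.Diag

/-! # The signed weights of the outcome patterns have total mass at most one -/

namespace Vale.Agent.Lib.P368

open Matrix Finset

set_option linter.unusedSectionVars false

variable {ι : Type} [Fintype ι] [DecidableEq ι]

/-- diagonal entries of a Hermitian idempotent are nonnegative reals (copy of `diag_proj_real`
of `Cov.lean`, which is not among the imports) -/
theorem diag_proj_nonneg {ν : Type} [Fintype ν] (P : Matrix ν ν ℂ) (h1 : Pᴴ = P) (h2 : P * P = P)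
    (z : ν) : ∃ t : ℝ, 0 ≤ t ∧ P z z = (t : ℂ) := by
  refine ⟨∑ w, ‖P z w‖ ^ 2, Finset.sum_nonneg fun w _ => by positivity, ?_⟩
  have : P z z = (P * P) z z := by rw [h2]
  rw [this, Matrix.mul_apply]
  push_cast
  refine Finset.sum_congr rfl fun w _ => ?_
  have : P w z = star (P z w) := by
    conv_lhs => rw [← h1]
    rfl
  rw [this, ← Complex.mul_conj']
  rfl

/-- the patterns sum to the identity -/
theorem sum_patOp (B : ι → M2) : ∑ σ : ι → Bool, patOp B σ = 1 := by
  have h := sum_patOp_weight B (fun _ _ => (1 : ℂ))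
  simp only [Finset.prod_const_one, one_smul, add_sub_cancel] at h
  rw [h, prodOp_one]

/-- total mass at most one.  Plan: `Q σ = Xᴴ * patOp B σ * X` is Hermitian and idempotent
(`X * Xᴴ = 1` by `Matrix.mul_eq_one_comm`), so by `diag_proj_real` its diagonal entries are
nonnegative reals `t σ z`; `‖Phi inp (Q σ)‖ ≤ ∑ z, |coef inp z| * t σ z`;
`∑ σ, Q σ = Xᴴ * 1 * X = 1` (`sum_patOp_weight` with `g = 1`, `prodOp_one`), so
`∑ σ, t σ z = 1`; finish with `sum_abs_coef`. -/
theorem sum_norm_patW_le (inp : ι → Bool) (X : Op ι) (hX : Xᴴ * X = 1) (B : ι → M2)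
    (hB : SiteP B) : ∑ σ : ι → Bool, ‖patW inp X B σ‖ ≤ 1 := by
  have hX' : X * Xᴴ = 1 := mul_eq_one_comm.mp hX
  have h1 : ∀ σ, (Xᴴ * patOp B σ * X)ᴴ = Xᴴ * patOp B σ * X := by
    intro σ
    rw [Matrix.conjTranspose_mul, Matrix.conjTranspose_mul, Matrix.conjTranspose_conjTranspose,
      patOp_herm hB, Matrix.mul_assoc]
  have h2 : ∀ σ, (Xᴴ * patOp B σ * X) * (Xᴴ * patOp B σ * X) = Xᴴ * patOp B σ * X := by
    intro σ
    calc (Xᴴ * patOp B σ * X) * (Xᴴ * patOp B σ * X)
        = Xᴴ * patOp B σ * (X * Xᴴ) * patOp B σ * X := by simp only [Matrix.mul_assoc]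
      _ = Xᴴ * (patOp B σ * patOp B σ) * X := by rw [hX', Matrix.mul_one, Matrix.mul_assoc Xᴴ]
      _ = Xᴴ * patOp B σ * X := by rw [patOp_idem hB]
  choose t ht0 ht using fun σ => diag_proj_nonneg (Xᴴ * patOp B σ * X) (h1 σ) (h2 σ)
  have hsumQ : ∑ σ : ι → Bool, Xᴴ * patOp B σ * X = 1 := by
    rw [← Finset.sum_mul, ← Finset.mul_sum, sum_patOp, Matrix.mul_one, hX]
  have hsumt : ∀ z, ∑ σ : ι → Bool, t σ z = 1 := by
    intro z
    have h := congrFun (congrFun hsumQ z) z
    rw [Matrix.sum_apply, Matrix.one_apply_eq] at h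
    have h' : ((∑ σ : ι → Bool, t σ z : ℝ) : ℂ) = 1 := by
      push_cast
      rw [← h]
      exact Finset.sum_congr rfl fun σ _ => (ht σ z).symm
    exact_mod_cast h'
  have hb : ∀ σ, ‖patW inp X B σ‖ ≤ ∑ z, |coef inp z| * t σ z := by
    intro σ
    unfold patW Phi
    refine (norm_sum_le _ _).trans ?_
    refine Finset.sum_le_sum fun z _ => ?_
    rw [ht σ z, norm_mul, Complex.norm_real, Complex.norm_real, Real.norm_eq_abs,
      Real.norm_eq_abs, abs_of_nonneg (ht0 σ z)]
  calc ∑ σ : ι → Bool, ‖patW inp X B σ‖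
      ≤ ∑ σ : ι → Bool, ∑ z, |coef inp z| * t σ z := Finset.sum_le_sum fun σ _ => hb σ
    _ = ∑ z, ∑ σ : ι → Bool, |coef inp z| * t σ z := Finset.sum_comm
    _ = ∑ z, |coef inp z| := by
        refine Finset.sum_congr rfl fun z _ => ?_
        rw [← Finset.mul_sum, hsumt z, mul_one]
    _ = 1 := sum_abs_coef inp

end Vale.Agent.Lib.P368
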