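import Vale.Agent.Lib.P368.D3.SeqFin
import Vale.Agent.Lib.P368.D3.DiagMass
import Vale.Agent.Lib.P368.D3.ChebAnd
import Vale.Agent.Lib.P368.Unitary

/-! # Two layers below a product projector: the polynomial method -/

namespace Vale.Agent.Lib.P368

open Matrix Finset

set_option linter.unusedSectionVars false

variable {ι : Type} [Fintype ι] [DecidableEq ι]

theorem conjBy_conjBy (l₁ ρ : List (Finset ι × (ι → M2))) (M : Op ι) :
    conjBy l₁ (conjBy ρ M) = (rlistOp ρ * rlistOp l₁)ᴴ * M * (rlistOp ρ * rlistOp l₁) := by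
  simp only [conjBy, Matrix.conjTranspose_mul, Matrix.mul_assoc]

theorem two_layers_unitary (l₁ ρ : List (Finset ι × (ι → M2))) (h₁ : rlistValid l₁)
    (hρ : rlistValid ρ) : (rlistOp ρ * rlistOp l₁)ᴴ * (rlistOp ρ * rlistOp l₁) = 1 := by
  rw [Matrix.conjTranspose_mul, Matrix.mul_assoc, ← Matrix.mul_assoc (rlistOp ρ)ᴴ,
    rlistOp_unitary ρ hρ.1, Matrix.one_mul, rlistOp_unitary l₁ h₁.1]

/-- `(1 + sqrt (2 / m)) ^ k / 2 ≤ 39 ^ k` for `m ≥ 1` -/
theorem growth_le (m : ℝ) (hm : 1 ≤ m) (k : ℕ) :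
    (1 + Real.sqrt (2 / m)) ^ k / 2 ≤ 39 ^ k := by
  have h1 : Real.sqrt (2 / m) ≤ 2 := by
    rw [Real.sqrt_le_left (by norm_num)]
    rw [div_le_iff₀ (by linarith)]
    nlinarith
  have h2 : (1 + Real.sqrt (2 / m)) ^ k ≤ 39 ^ k :=
    pow_le_pow_left₀ (by positivity) (by linarith) k
  have h3 : (0 : ℝ) ≤ (1 + Real.sqrt (2 / m)) ^ k := by positivity
  linarith

/-- the core bound: `m` bounds the number of gates of the upper layer `ρ` that see a nontrivial
site of `B` -/
theorem core3_touch (inp : ι → Bool) (l₁ ρ : List (Finset ι × (ι → M2))) (h₁ : rlistValid l₁)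
    (hρ : rlistValid ρ) (B : ι → M2) (hB : SiteP B) (G : Finset (Finset ι × (ι → M2)))
    (hGρ : ∀ r ∈ G, r ∈ ρ) (hG : ∀ r ∈ ρ, r ∉ G → ∀ j ∈ r.1, B j = 1)
    (m : ℝ) (hm : 1 ≤ m) (hlen : (G.card : ℝ) ≤ m) (k : ℕ) :
    ‖Phi inp (conjBy l₁ (conjBy ρ (prodOp B)))‖ * ((1 + Real.sqrt (2 / m)) ^ k / 2)
      ≤ 1 + 39 ^ k * gam ^ numInp inp := by
  classical
  have hg0 : 0 ≤ gam ^ numInp inp := pow_nonneg gam_pos.le _
  set X : Op ι := rlistOp ρ * rlistOp l₁ with hX
  have hXu : Xᴴ * X = 1 := two_layers_unitary l₁ ρ h₁ hρ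
  set F : Finset ι := Finset.univ.filter (fun j => ∀ r ∈ G, j ∉ r.1) with hF
  -- the set of sites tested by the monomial `T`
  let A : Finset (Finset ι × (ι → M2)) → Finset ι := fun T => F ∪ T.biUnion (fun r => r.1)
  let fr : (ι → Bool) → ℝ := fun σ => if ∀ j ∈ F, σ j = true then 1 else 0
  let pass : (Finset ι × (ι → M2)) → (ι → Bool) → ℝ :=
    fun r σ => if ∀ j ∈ r.1, σ j = true then 1 else 0
  have hind : ∀ (T : Finset (Finset ι × (ι → M2))) (σ : ι → Bool),
      fr σ * ∏ r ∈ T, pass r σ = if ∀ j ∈ A T, σ j = true then 1 else 0 := by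
    intro T σ
    have h1 : ∏ r ∈ T, pass r σ = if ∀ r ∈ T, ∀ j ∈ r.1, σ j = true then 1 else 0 :=
      Finset.prod_boole
    rw [h1]
    by_cases ha : ∀ j ∈ F, σ j = true
    · by_cases hb : ∀ r ∈ T, ∀ j ∈ r.1, σ j = true
      · have hc : ∀ j ∈ A T, σ j = true := by
          intro j hj
          rcases Finset.mem_union.1 hj with h | h
          · exact ha j h
          · obtain ⟨r, hr, hjr⟩ := Finset.mem_biUnion.1 h
            exact hb r hr j hjr
        simp only [fr, if_pos ha, if_pos hb, if_pos hc, mul_one]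
      · have hc : ¬ ∀ j ∈ A T, σ j = true := by
          intro hc
          apply hb
          intro r hr j hj
          exact hc j (Finset.mem_union_right _ (Finset.mem_biUnion.2 ⟨r, hr, hj⟩))
        simp only [if_neg hb, if_neg hc, mul_zero]
    · have hc : ¬ ∀ j ∈ A T, σ j = true := by
        intro hc
        apply ha
        intro j hj
        exact hc j (Finset.mem_union_left _ hj)
      simp only [fr, if_neg ha, if_neg hc, zero_mul]
  have hsum : ∀ T : Finset (Finset ι × (ι → M2)),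
      ∑ σ : ι → Bool, ((fr σ * ∏ r ∈ T, pass r σ : ℝ) : ℂ) * patW inp X B σ
        = Phi inp (conjBy l₁ (conjBy ρ (prodOp (fun j => if j ∈ A T then B j else 1)))) := by
    intro T
    rw [conjBy_conjBy, ← sum_ind_patW]
    refine Finset.sum_congr rfl fun σ _ => ?_
    rw [hind]
  have hT : ∀ T ⊆ G, ‖∑ σ : ι → Bool, ((fr σ * ∏ r ∈ T, pass r σ : ℝ) : ℂ) * patW inp X B σ‖
      ≤ 9 ^ T.card * gam ^ numInp inp := by
    intro T hTG
    rw [hsum]
    refine seq_bound_finset inp l₁ h₁ ρ hρ _ ?_ T ?_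
    · intro j
      by_cases hj : j ∈ A T
      · simp only [if_pos hj]; exact hB.site1 j
      · simp only [if_neg hj]; exact Or.inl trivial
    · intro r hr hrT j hj
      by_cases hrG : r ∈ G
      · have hjA : j ∉ A T := by
          intro h
          rcases Finset.mem_union.1 h with h | h
          · exact (Finset.mem_filter.1 h).2 r hrG hj
          · obtain ⟨s, hs, hjs⟩ := Finset.mem_biUnion.1 h
            have hsρ : s ∈ ρ := hGρ s (hTG hs)
            have hne : r ≠ s := fun e => hrT (e ▸ hs)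
            have : Std.Symm (fun a b : Finset ι × (ι → M2) => Disjoint a.1 b.1) :=
              ⟨fun _ _ hab => hab.symm⟩
            have hd : Disjoint r.1 s.1 := hρ.2.forall hr hsρ hne
            exact Finset.disjoint_left.1 hd hj hjs
        simp only [if_neg hjA]
      · simp only [hG r hr hrG j hj, ite_self]
  have hAG : ∀ j, j ∈ A G := by
    intro j
    by_cases hj : ∀ r ∈ G, j ∉ r.1
    · exact Finset.mem_union_left _ (Finset.mem_filter.2 ⟨Finset.mem_univ _, hj⟩)
    · push Not at hj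
      obtain ⟨r, hr, hjr⟩ := hj
      exact Finset.mem_union_right _ (Finset.mem_biUnion.2 ⟨r, hr, hjr⟩)
  have hfull : ∑ σ : ι → Bool, ((fr σ * ∏ r ∈ G, pass r σ : ℝ) : ℂ) * patW inp X B σ
      = Phi inp (conjBy l₁ (conjBy ρ (prodOp B))) := by
    rw [hsum]
    congr 4
    funext j
    rw [if_pos (hAG j)]
  have key := cheb_and (patW inp X B) (sum_norm_patW_le inp X hXu B hB) fr
    (fun σ => by
      by_cases h : ∀ j ∈ F, σ j = true
      · exact Or.inr (if_pos h)
      · exact Or.inl (if_neg h)) pass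
    (fun r σ => by
      by_cases h : ∀ j ∈ r.1, σ j = true
      · exact Or.inr (if_pos h)
      · exact Or.inl (if_neg h)) G
    (gam ^ numInp inp) hg0 hT k
  rw [hfull] at key
  have hn0 := norm_nonneg (Phi inp (conjBy l₁ (conjBy ρ (prodOp B))))
  by_cases hcard : G.card = 0
  · -- no relevant gate at all in the upper layer
    have hb := hT G (Finset.Subset.refl _)
    rw [hfull, hcard, pow_zero, one_mul] at hb
    have h39 := growth_le m hm k
    have hp : (0 : ℝ) ≤ (1 + Real.sqrt (2 / m)) ^ k / 2 := by positivity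
    calc _ ≤ gam ^ numInp inp * 39 ^ k := mul_le_mul hb h39 hp hg0
      _ ≤ 1 + 39 ^ k * gam ^ numInp inp := by linarith [mul_comm (gam ^ numInp inp) (39 ^ k)]
  · have hc1 : (1 : ℝ) ≤ (G.card : ℝ) := by
      exact_mod_cast Nat.one_le_iff_ne_zero.2 hcard
    have hlow := cheb_lower (d := 1 / (G.card : ℝ)) (by positivity) k
    have hmono : (1 + Real.sqrt (2 / m)) ^ k / 2
        ≤ (1 + Real.sqrt (2 * (1 / (G.card : ℝ)))) ^ k / 2 := by
      have : 2 / m ≤ 2 * (1 / (G.card : ℝ)) := by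
        rw [mul_one_div]
        exact div_le_div_of_nonneg_left (by norm_num) (by linarith) hlen
      have h2 := Real.sqrt_le_sqrt this
      have h3 : (1 + Real.sqrt (2 / m)) ^ k ≤ (1 + Real.sqrt (2 * (1 / (G.card : ℝ)))) ^ k :=
        pow_le_pow_left₀ (by positivity) (by linarith) k
      linarith
    calc _ ≤ ‖Phi inp (conjBy l₁ (conjBy ρ (prodOp B)))‖ * cheb (1 + 1 / (G.card : ℝ)) k :=
          mul_le_mul_of_nonneg_left (hmono.trans hlow) hn0
      _ ≤ _ := key

/-- the core bound: `m` bounds the number of gates of the upper layer `ρ` -/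
theorem core3 (inp : ι → Bool) (l₁ ρ : List (Finset ι × (ι → M2))) (h₁ : rlistValid l₁)
    (hρ : rlistValid ρ) (B : ι → M2) (hB : SiteP B) (m : ℝ) (hm : 1 ≤ m)
    (hlen : (ρ.length : ℝ) ≤ m) (k : ℕ) :
    ‖Phi inp (conjBy l₁ (conjBy ρ (prodOp B)))‖ * ((1 + Real.sqrt (2 / m)) ^ k / 2)
      ≤ 1 + 39 ^ k * gam ^ numInp inp := by
  classical
  refine core3_touch inp l₁ ρ h₁ hρ B hB ρ.toFinset (fun r hr => List.mem_toFinset.1 hr)
    (fun r hr hrG => absurd (List.mem_toFinset.2 hr) hrG) m hm ?_ k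
  have : ρ.toFinset.card ≤ ρ.length := List.toFinset_card_le ρ
  have : (ρ.toFinset.card : ℝ) ≤ (ρ.length : ℝ) := by exact_mod_cast this
  linarith

/-- the core bound: `B` is trivial outside a set `S` of at most `m` sites -/
theorem core3_supp (inp : ι → Bool) (l₁ ρ : List (Finset ι × (ι → M2))) (h₁ : rlistValid l₁)
    (hρ : rlistValid ρ) (B : ι → M2) (hB : SiteP B) (S : Finset ι) (hS : ∀ j, j ∉ S → B j = 1)
    (m : ℝ) (hm : 1 ≤ m) (hlen : (S.card : ℝ) ≤ m) (k : ℕ) :
    ‖Phi inp (conjBy l₁ (conjBy ρ (prodOp B)))‖ * ((1 + Real.sqrt (2 / m)) ^ k / 2)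
      ≤ 1 + 39 ^ k * gam ^ numInp inp := by
  classical
  set G : Finset (Finset ι × (ι → M2)) := ρ.toFinset.filter (fun r => (r.1 ∩ S).Nonempty) with hG
  refine core3_touch inp l₁ ρ h₁ hρ B hB G
    (fun r hr => List.mem_toFinset.1 (Finset.mem_filter.1 hr).1) ?_ m hm ?_ k
  · intro r hr hrG j hj
    apply hS
    intro hjS
    exact hrG (Finset.mem_filter.2 ⟨List.mem_toFinset.2 hr, ⟨j, Finset.mem_inter.2 ⟨hj, hjS⟩⟩⟩)
  · have hdis : (G : Set (Finset ι × (ι → M2))).PairwiseDisjoint (fun r => r.1 ∩ S) := by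
      intro r hr s hs hne
      have hrρ : r ∈ ρ := List.mem_toFinset.1 (Finset.mem_filter.1 hr).1
      have hsρ : s ∈ ρ := List.mem_toFinset.1 (Finset.mem_filter.1 hs).1
      have : Std.Symm (fun a b : Finset ι × (ι → M2) => Disjoint a.1 b.1) :=
        ⟨fun _ _ hab => hab.symm⟩
      have hd : Disjoint r.1 s.1 := hρ.2.forall hrρ hsρ hne
      exact hd.mono Finset.inter_subset_left Finset.inter_subset_left
    have h1 : G.card ≤ (G.biUnion (fun r => r.1 ∩ S)).card := by
      rw [Finset.card_biUnion hdis]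
      calc G.card = ∑ _r ∈ G, 1 := by simp
        _ ≤ ∑ r ∈ G, (r.1 ∩ S).card :=
            Finset.sum_le_sum fun r hr => Finset.card_pos.2 (Finset.mem_filter.1 hr).2
    have h2 : (G.biUnion (fun r => r.1 ∩ S)).card ≤ S.card := by
      apply Finset.card_le_card
      intro j hj
      obtain ⟨r, _, hjr⟩ := Finset.mem_biUnion.1 hj
      exact (Finset.mem_inter.1 hjr).2
    have : (G.card : ℝ) ≤ (S.card : ℝ) := by exact_mod_cast h1.trans h2
    linarith

end Vale.Agent.Lib.P368
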