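import Vale.Agent.Lib.P368.Count

/-! # The joint distribution of the outcomes of commuting one-site tests -/

namespace Vale.Agent.Lib.P368

open Matrix Finset

set_option linter.unusedSectionVars false

variable {ι : Type} [Fintype ι] [DecidableEq ι]

/-- product operators all of whose sites are the identity or rank-one projectors -/
def SiteP (B : ι → M2) : Prop := ∀ j, B j = 1 ∨ Pr (B j)

theorem SiteP.site1 {B : ι → M2} (h : SiteP B) : Site1 B := fun j => (h j).imp id Pr.k1

/-- the projector onto the outcome pattern `σ`: `B j` where `σ j` is true, `1 - B j` elsewhere -/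
noncomputable def patOp (B : ι → M2) (σ : ι → Bool) : Op ι :=
  prodOp (fun j => if σ j then B j else 1 - B j)

theorem SiteP.herm {B : ι → M2} (hB : SiteP B) (j : ι) : (B j)ᴴ = B j := by
  rcases hB j with h | h
  · rw [h]; exact Matrix.conjTranspose_one
  · exact h.herm

theorem SiteP.idem {B : ι → M2} (hB : SiteP B) (j : ι) : B j * B j = B j := by
  rcases hB j with h | h
  · rw [h]; exact Matrix.one_mul 1
  · exact h.idem

/-- `prodOp_conjTranspose`, `Pr.herm` -/
theorem patOp_herm {B : ι → M2} (hB : SiteP B) (σ : ι → Bool) : (patOp B σ)ᴴ = patOp B σ := by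
  unfold patOp
  rw [prodOp_conjTranspose]
  congr 1
  funext j
  by_cases h : σ j = true
  · simp only [h, if_true]
    exact hB.herm j
  · simp only [h, if_false, Bool.false_eq_true]
    rw [Matrix.conjTranspose_sub, Matrix.conjTranspose_one, hB.herm j]

/-- `prodOp_mul`, `Pr.idem` -/
theorem patOp_idem {B : ι → M2} (hB : SiteP B) (σ : ι → Bool) :
    patOp B σ * patOp B σ = patOp B σ := by
  unfold patOp
  rw [prodOp_mul]
  congr 1
  funext j
  by_cases h : σ j = true
  · simp only [h, if_true]
    exact hB.idem j
  · simp only [h, if_false, Bool.false_eq_true]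
    rw [Matrix.sub_mul, Matrix.mul_sub, Matrix.mul_sub, Matrix.one_mul, Matrix.mul_one,
      Matrix.one_mul, hB.idem j]
    abel

/-- summing patterns against product weights (entrywise: `Finset.prod_univ_sum`, as in the proof
of `Phi_prodOp`) -/
theorem sum_patOp_weight (B : ι → M2) (g : ι → Bool → ℂ) :
    ∑ σ : ι → Bool, (∏ j, g j (σ j)) • patOp B σ
      = prodOp (fun j => g j true • B j + g j false • (1 - B j)) := by
  ext x y
  rw [Matrix.sum_apply, prodOp_apply]
  have h1 : ∀ j : ι, (g j true • B j + g j false • (1 - B j)) (x j) (y j)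
      = ∑ b : Bool, g j b * (if b then B j else 1 - B j) (x j) (y j) := by
    intro j
    rw [Fintype.sum_bool]
    simp only [Matrix.add_apply, Matrix.smul_apply, smul_eq_mul, if_true, Bool.false_eq_true,
      if_false]
  rw [Finset.prod_congr rfl (fun j _ => h1 j), Finset.prod_univ_sum, Fintype.piFinset_univ]
  refine Finset.sum_congr rfl fun σ _ => ?_
  rw [Matrix.smul_apply, smul_eq_mul, patOp, prodOp_apply, Finset.prod_mul_distrib]

/-- the signed weight of the pattern `σ` after the evolution `X` -/
noncomputable def patW (inp : ι → Bool) (X : Op ι) (B : ι → M2) (σ : ι → Bool) : ℂ :=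
  Phi inp (Xᴴ * patOp B σ * X)

theorem Phi_finsum {κ : Type} (inp : ι → Bool) (s : Finset κ) (F : κ → Op ι) :
    Phi inp (∑ k ∈ s, F k) = ∑ k ∈ s, Phi inp (F k) := by
  classical
  induction s using Finset.induction_on with
  | empty => simp [Phi]
  | insert a s ha ih => rw [Finset.sum_insert ha, Finset.sum_insert ha, Phi_add, ih]

/-- the patterns that pass all tests of the sites in `A`: use `sum_patOp_weight` with
`g j b = if j ∈ A then (if b then 1 else 0) else 1` and linearity of `Phi` and of
`M ↦ Xᴴ * M * X` -/
theorem sum_ind_patW (inp : ι → Bool) (X : Op ι) (B : ι → M2) (A : Finset ι) :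
    ∑ σ : ι → Bool, (((if ∀ j ∈ A, σ j = true then 1 else 0 : ℝ)) : ℂ) * patW inp X B σ
      = Phi inp (Xᴴ * prodOp (fun j => if j ∈ A then B j else 1) * X) := by
  have hg := sum_patOp_weight B
    (fun j b => if j ∈ A then (if b = true then (1 : ℂ) else 0) else 1)
  have hR : (fun j => (if j ∈ A then (if true = true then (1 : ℂ) else 0) else 1) • B j
      + (if j ∈ A then (if false = true then (1 : ℂ) else 0) else 1) • (1 - B j))
      = (fun j => if j ∈ A then B j else 1) := by
    funext j
    by_cases h : j ∈ A
    · simp [h]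
    · simp [h]
  rw [hR] at hg
  rw [← hg, Finset.mul_sum, Finset.sum_mul, Phi_finsum]
  refine Finset.sum_congr rfl fun σ _ => ?_
  rw [Matrix.mul_smul, Matrix.smul_mul, Phi_smul, patW]
  congr 1
  have hp : (∏ j, (if j ∈ A then (if σ j = true then (1 : ℂ) else 0) else 1))
      = ∏ j ∈ A, (if σ j = true then (1 : ℂ) else 0) := by
    rw [← Finset.prod_filter]
    refine Finset.prod_congr ?_ fun _ _ => rfl
    ext j
    simp
  rw [hp, Finset.prod_ite_zero]
  by_cases h : ∀ j ∈ A, σ j = true
  · rw [if_pos h, if_pos h]; simp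
  · rw [if_neg h, if_neg h]; simp

end Vale.Agent.Lib.P368
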