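import Vale.Agent.Lib.P368.D3.Top3S

/-! # Entangling depth three: the bounds in terms of the number of qubits -/

namespace Vale.Agent.Lib.P368

open Matrix Finset

/-- entangling depth at most three, `n + a` qubits -/
theorem depth_three_bound {n a : ℕ} (C : List (List (Gate (Fin n ⊕ Fin a))))
    (hC : circuitValid C) (hd : entanglingDepth C ≤ 3) (o : Fin n ⊕ Fin a) :
    |parityCorrelation C o| ≤ 144 / (1 + 2 / Real.sqrt ((n : ℝ) + a)) ^ (n / 22) := by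
  obtain ⟨u, l₃, l₂, l₁, hu, h₃, h₂, h₁, hlen, heq⟩ := circuit_nf_three C hC hd
  have hcard : Fintype.card (Fin n ⊕ Fin a) = n + a := by simp
  rw [hcard] at hlen
  have hlen' : 2 * (l₂.length : ℝ) ≤ (n : ℝ) + a := by exact_mod_cast hlen
  by_cases hn : n < 22
  · have h0 : n / 22 = 0 := Nat.div_eq_of_lt hn
    have := nf3_bound C o u l₃ l₂ l₁ hu h₃ h₂ h₁ heq (max 1 (l₂.length : ℝ)) (le_max_left _ _)
      (le_max_right _ _)
    rw [h0, pow_zero] at this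
    rw [h0, pow_zero]
    exact this
  · have hn' : (22 : ℝ) ≤ n := by exact_mod_cast Nat.le_of_not_lt hn
    have ha : (0 : ℝ) ≤ a := Nat.cast_nonneg a
    have hN : (0 : ℝ) < (n : ℝ) + a := by linarith
    have := nf3_bound C o u l₃ l₂ l₁ hu h₃ h₂ h₁ heq (((n : ℝ) + a) / 2) (by linarith)
      (by linarith)
    have e : Real.sqrt (2 / (((n : ℝ) + a) / 2)) = 2 / Real.sqrt ((n : ℝ) + a) := by
      have : 2 / (((n : ℝ) + a) / 2) = 2 ^ 2 / ((n : ℝ) + a) := by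
        field_simp
      rw [this, Real.sqrt_div (by norm_num), Real.sqrt_sq (by norm_num)]
    rw [e] at this
    exact this

/-- three explicit entangling layers, at most `M` multiqubit gates in the middle one -/
theorem depth_three_gate_bound {n a : ℕ} (C₀ C₁ C₂ C₃ : List (List (Gate (Fin n ⊕ Fin a))))
    (L₁ L₂ L₃ : List (Gate (Fin n ⊕ Fin a)))
    (hC : circuitValid (C₀ ++ L₁ :: (C₁ ++ L₂ :: (C₂ ++ L₃ :: C₃))))
    (h₀ : multiCount C₀ = 0) (h₁ : multiCount C₁ = 0) (h₂ : multiCount C₂ = 0)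
    (h₃ : multiCount C₃ = 0) (M : ℕ) (hM : 1 ≤ M) (hL : L₂.countP Gate.isMulti ≤ M)
    (o : Fin n ⊕ Fin a) :
    |parityCorrelation (C₀ ++ L₁ :: (C₁ ++ L₂ :: (C₂ ++ L₃ :: C₃))) o|
      ≤ 144 / (1 + Real.sqrt (2 / (M : ℝ))) ^ (n / 22) := by
  obtain ⟨u, l₃, l₂, l₁, hu, v₃, v₂, v₁, hlen, heq⟩ := sandwich3_nf C₀ C₁ C₂ C₃ L₁ L₂ L₃ hC h₀ h₁
    h₂ h₃
  refine nf3_bound _ o u l₃ l₂ l₁ hu v₃ v₂ v₁ heq (M : ℝ) (by exact_mod_cast hM) ?_
  rw [hlen]
  exact_mod_cast hL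

/-- three explicit entangling layers, the gate of the last one that acts on the output qubit has
at most `M` qubits -/
theorem depth_three_fanin_bound {n a : ℕ} (C₀ C₁ C₂ C₃ : List (List (Gate (Fin n ⊕ Fin a))))
    (L₁ L₂ L₃ : List (Gate (Fin n ⊕ Fin a)))
    (hC : circuitValid (C₀ ++ L₁ :: (C₁ ++ L₂ :: (C₂ ++ L₃ :: C₃))))
    (h₀ : multiCount C₀ = 0) (h₁ : multiCount C₁ = 0) (h₂ : multiCount C₂ = 0)
    (h₃ : multiCount C₃ = 0) (M : ℕ) (hM : 1 ≤ M) (o : Fin n ⊕ Fin a)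
    (hL : ∀ g ∈ L₃, o ∈ g.supp → g.supp.card ≤ M) :
    |parityCorrelation (C₀ ++ L₁ :: (C₁ ++ L₂ :: (C₂ ++ L₃ :: C₃))) o|
      ≤ 144 / (1 + Real.sqrt (2 / (M : ℝ))) ^ (n / 22) := by
  obtain ⟨u, l₃, l₂, l₁, hu, v₃, v₂, v₁, -, hsupp, heq⟩ :=
    sandwich3_nf_supp C₀ C₁ C₂ C₃ L₁ L₂ L₃ hC h₀ h₁ h₂ h₃
  refine nf3_bound_supp _ o u l₃ l₂ l₁ hu v₃ v₂ v₁ heq (M : ℝ) (by exact_mod_cast hM) ?_
  intro r hr hor
  obtain ⟨g, hg, hrg⟩ := hsupp r hr
  rw [hrg]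
  exact_mod_cast hL g hg (hrg ▸ hor)

/-- the scalar estimate behind the quadratic threshold -/
theorem quad_estimate (ε : ℝ) (hε : 0 < ε) (n : ℕ) (N : ℝ) (hn : 22 ≤ n) (hN0 : 0 < N)
    (hN : N ≤ (ε / 3168) ^ 2 * (n : ℝ) ^ 2) :
    144 / (1 + 2 / Real.sqrt N) ^ (n / 22) ≤ ε := by
  have hn0 : (0 : ℝ) < n := by
    have : (22 : ℝ) ≤ n := by exact_mod_cast hn
    linarith
  have hs : Real.sqrt N ≤ ε / 3168 * n := by
    rw [Real.sqrt_le_left (by positivity)]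
    calc N ≤ (ε / 3168) ^ 2 * (n : ℝ) ^ 2 := hN
      _ = (ε / 3168 * n) ^ 2 := by ring
  have hs0 : 0 < Real.sqrt N := Real.sqrt_pos.2 hN0
  -- `n / 22 ≥ n / 44` as real numbers
  have hk : (n : ℝ) / 44 ≤ ((n / 22 : ℕ) : ℝ) := by
    have h1 : n < 22 * (n / 22) + 22 := by
      have := Nat.div_add_mod n 22
      have h2 := Nat.mod_lt n (by norm_num : 22 > 0)
      omega
    have h3 : 1 ≤ n / 22 := (Nat.one_le_div_iff (by norm_num)).2 hn
    have h1' : (n : ℝ) < 22 * ((n / 22 : ℕ) : ℝ) + 22 := by exact_mod_cast h1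
    have h3' : (1 : ℝ) ≤ ((n / 22 : ℕ) : ℝ) := by exact_mod_cast h3
    linarith
  have hu : 0 ≤ 2 / Real.sqrt N := by positivity
  have hbern : 1 + ((n / 22 : ℕ) : ℝ) * (2 / Real.sqrt N) ≤ (1 + 2 / Real.sqrt N) ^ (n / 22) :=
    one_add_mul_le_pow (by linarith) _
  have hlow : 144 / ε ≤ ((n / 22 : ℕ) : ℝ) * (2 / Real.sqrt N) := by
    have h1 : 2 / (ε / 3168 * n) ≤ 2 / Real.sqrt N :=
      div_le_div_of_nonneg_left (by norm_num) hs0 hs
    calc 144 / ε = (n : ℝ) / 44 * (2 / (ε / 3168 * n)) := by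
          field_simp
          norm_num
      _ ≤ ((n / 22 : ℕ) : ℝ) * (2 / Real.sqrt N) :=
          mul_le_mul hk h1 (by positivity) (by positivity)
  have hD : 144 / ε ≤ (1 + 2 / Real.sqrt N) ^ (n / 22) := by linarith
  have hD0 : 0 < (1 + 2 / Real.sqrt N) ^ (n / 22) := by positivity
  rw [div_le_iff₀ hD0]
  rw [div_le_iff₀ hε] at hD
  linarith

/-- no fixed correlation with `o (n ^ 2)` qubits at entangling depth three -/
theorem depth_three_quadratic (ε : ℝ) (hε : 0 < ε) :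
    ∃ c : ℝ, 0 < c ∧ ∀ (n a : ℕ) (C : List (List (Gate (Fin n ⊕ Fin a)))) (o : Fin n ⊕ Fin a),
      circuitValid C → entanglingDepth C ≤ 3 → (n : ℝ) + a ≤ c * (n : ℝ) ^ 2 →
        |parityCorrelation C o| ≤ ε := by
  refine ⟨min ((ε / 3168) ^ 2) (1 / 22), lt_min (by positivity) (by norm_num), ?_⟩
  intro n a C o hC hd hN
  have ha : (0 : ℝ) ≤ a := Nat.cast_nonneg a
  have hn0 : (0 : ℝ) ≤ n := Nat.cast_nonneg n
  have hsq : (0 : ℝ) ≤ (n : ℝ) ^ 2 := by positivity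
  have hN1 : (n : ℝ) + a ≤ (ε / 3168) ^ 2 * (n : ℝ) ^ 2 :=
    hN.trans (mul_le_mul_of_nonneg_right (min_le_left _ _) hsq)
  have hN2 : (n : ℝ) + a ≤ 1 / 22 * (n : ℝ) ^ 2 :=
    hN.trans (mul_le_mul_of_nonneg_right (min_le_right _ _) hsq)
  rcases Nat.eq_zero_or_pos n with h0 | hpos
  · -- no qubit at all
    subst h0
    have : (a : ℝ) ≤ 0 := by
      simpa using hN2
    have ha0 : a = 0 := by
      have : (a : ℝ) = 0 := le_antisymm this ha
      exact_mod_cast this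
    subst ha0
    rcases o with i | i
    · exact i.elim0
    · exact i.elim0
  · have hpos' : (0 : ℝ) < n := by exact_mod_cast hpos
    have h22 : (22 : ℝ) ≤ n := by
      have : (n : ℝ) ≤ 1 / 22 * (n : ℝ) ^ 2 := by linarith
      by_contra hlt
      push Not at hlt
      nlinarith
    have h22' : 22 ≤ n := by exact_mod_cast h22
    exact (depth_three_bound C hC hd o).trans
      (quad_estimate ε hε n _ h22' (by linarith) hN1)

end Vale.Agent.Lib.P368
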