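import Vale.Agent.Lib.P368.CountNF

/-! # Normal form for entangling depth at most three -/

namespace Vale.Agent.Lib.P368

open Matrix Finset

set_option linter.unusedSectionVars false

variable {ι : Type} [Fintype ι] [DecidableEq ι]

/-- `layer_nf` with the extra information that every reflection occupies at least two qubits -/
theorem layer_nf_card (L : List (Gate ι)) (hL : layerValid L) (u : ι → M2) (hu : LocalU u) :
    ∃ (u' : ι → M2) (l : List (Finset ι × (ι → M2))), LocalU u' ∧ rlistValid l ∧
      (∀ r ∈ l, ∃ g ∈ L, r.1 = g.supp) ∧ (∀ r ∈ l, 2 ≤ r.1.card) ∧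
      (layerEntangling L = false → l = []) ∧
      layerOp L * prodOp u = prodOp u' * rlistOp l := by
  induction L with
  | nil =>
    exact ⟨u, [], hu, ⟨by simp, List.Pairwise.nil⟩, by simp, by simp, fun _ => rfl,
      by simp [layerOp, rlistOp]⟩
  | cons g L ih =>
    have hL' : layerValid L :=
      ⟨fun g' hg' => hL.1 g' (List.mem_cons_of_mem _ hg'), (List.pairwise_cons.1 hL.2).2⟩
    obtain ⟨u', l, hu', hl, hsupp, hcard, hent, heq⟩ := ih hL'
    have hop : layerOp (g :: L) * prodOp u = g.op * (prodOp u' * rlistOp l) := by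
      rw [← heq]
      simp only [layerOp, List.map_cons, List.prod_cons, Matrix.mul_assoc]
    have hg := hL.1 g List.mem_cons_self
    cases g with
    | single i s =>
      refine ⟨fun j => atSite i s j * u' j, l, ?_, hl, ?_, hcard, ?_, ?_⟩
      · intro j
        refine mul_mem ?_ (hu' j)
        by_cases hj : j = i
        · subst hj; rw [atSite_self]; exact hg
        · rw [atSite_ne i s hj]; exact one_mem _
      · intro r hr
        obtain ⟨g', hg', h⟩ := hsupp r hr
        exact ⟨g', List.mem_cons_of_mem _ hg', h⟩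
      · intro h
        apply hent
        simpa [layerEntangling, Gate.isMulti] using h
      · rw [hop, single_eq, ← Matrix.mul_assoc, prodOp_mul]
    | toffoli S b =>
      obtain ⟨hp, hv⟩ := refl_push hu' (tof_valid S b)
      refine ⟨u', (insert b S, fun j => (u' j)ᴴ * tofQ S b j * u' j) :: l, hu', ⟨?_, ?_⟩, ?_, ?_,
        ?_, ?_⟩
      · intro r hr
        rcases List.mem_cons.1 hr with rfl | hr
        · exact hv
        · exact hl.1 r hr
      · refine List.pairwise_cons.2 ⟨?_, hl.2⟩
        intro r hr
        obtain ⟨g', hg', h⟩ := hsupp r hr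
        have := (List.pairwise_cons.1 hL.2).1 g' hg'
        rw [h]
        exact this
      · intro r hr
        rcases List.mem_cons.1 hr with rfl | hr
        · exact ⟨_, List.mem_cons_self, rfl⟩
        · obtain ⟨g', hg', h⟩ := hsupp r hr
          exact ⟨g', List.mem_cons_of_mem _ hg', h⟩
      · intro r hr
        rcases List.mem_cons.1 hr with rfl | hr
        · show 2 ≤ (insert b S).card
          rw [Finset.card_insert_of_notMem hg.2]
          have := Finset.card_pos.2 hg.1
          omega
        · exact hcard r hr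
      · intro h
        simp [layerEntangling, Gate.isMulti] at h
      · rw [hop, toffoli_eq S b hg.2, ← Matrix.mul_assoc, hp]
        simp only [rlistOp, List.map_cons, List.prod_cons, Matrix.mul_assoc]

/-- pairwise disjoint supports of at least two qubits: at most half as many as qubits -/
theorem rlist_two_mul_length_aux (l : List (Finset ι × (ι → M2)))
    (hp : l.Pairwise (fun r s => Disjoint r.1 s.1)) (h2 : ∀ r ∈ l, 2 ≤ r.1.card) :
    ∃ U : Finset ι, 2 * l.length ≤ U.card ∧ ∀ t : Finset ι, (∀ r ∈ l, Disjoint t r.1) →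
      Disjoint t U := by
  induction l with
  | nil => exact ⟨∅, by simp, fun t _ => Finset.disjoint_empty_right t⟩
  | cons r l ih =>
    obtain ⟨U, hU, hd⟩ := ih (List.pairwise_cons.1 hp).2
      (fun s hs => h2 s (List.mem_cons_of_mem _ hs))
    have hrU : Disjoint r.1 U := hd r.1 (List.pairwise_cons.1 hp).1
    refine ⟨r.1 ∪ U, ?_, ?_⟩
    · rw [Finset.card_union_of_disjoint hrU, List.length_cons]
      have := h2 r List.mem_cons_self
      omega
    · intro t ht
      rw [Finset.disjoint_union_right]
      exact ⟨ht r List.mem_cons_self, hd t (fun s hs => ht s (List.mem_cons_of_mem _ hs))⟩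

theorem rlist_two_mul_length (l : List (Finset ι × (ι → M2))) (hl : rlistValid l)
    (h2 : ∀ r ∈ l, 2 ≤ r.1.card) : 2 * l.length ≤ Fintype.card ι := by
  obtain ⟨U, hU, -⟩ := rlist_two_mul_length_aux l hl.2 h2
  exact hU.trans (Finset.card_le_univ U)

/-- products of `k` layers of reflections, each layer with at most half as many reflections
as qubits -/
def RFc : ℕ → Op ι → Prop
  | 0, X => X = 1
  | k + 1, X => ∃ (l : List (Finset ι × (ι → M2))) (X' : Op ι),
      rlistValid l ∧ 2 * l.length ≤ Fintype.card ι ∧ RFc k X' ∧ X = rlistOp l * X'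

theorem RFc.succ {k : ℕ} {X : Op ι} (h : RFc k X) : RFc (k + 1) X :=
  ⟨[], X, ⟨by simp, List.Pairwise.nil⟩, by simp, h, by simp [rlistOp]⟩

theorem RFc.mono {k m : ℕ} {X : Op ι} (h : RFc k X) (hkm : k ≤ m) : RFc m X := by
  induction hkm with
  | refl => exact h
  | step _ ih => exact ih.succ

theorem circuit_nfc_aux (C : List (List (Gate ι))) (hC : circuitValid C) (U : Op ι) (k : ℕ)
    (hU : ∃ (u : ι → M2) (X : Op ι), LocalU u ∧ RFc k X ∧ U = prodOp u * X) :
    ∃ (u : ι → M2) (X : Op ι), LocalU u ∧ RFc (k + entanglingDepth C) X ∧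
      C.foldl (fun U L => layerOp L * U) U = prodOp u * X := by
  induction C generalizing U k with
  | nil => simpa [entanglingDepth] using hU
  | cons L C ih =>
    obtain ⟨u, X, hu, hX, rfl⟩ := hU
    have hL := hC L List.mem_cons_self
    have hC' : circuitValid C := fun L' hL' => hC L' (List.mem_cons_of_mem _ hL')
    obtain ⟨u', l, hu', hl, -, hcard, hent, heq⟩ := layer_nf_card L hL u hu
    rw [List.foldl_cons, ← Matrix.mul_assoc, heq, Matrix.mul_assoc]
    by_cases hE : layerEntangling L = true
    · have := ih hC' (prodOp u' * (rlistOp l * X)) (k + 1)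
        ⟨u', rlistOp l * X, hu', ⟨l, X, hl, rlist_two_mul_length l hl hcard, hX, rfl⟩, rfl⟩
      have e : k + entanglingDepth (L :: C) = k + 1 + entanglingDepth C := by
        simp only [entanglingDepth, List.countP_cons, hE, if_true]
        ring
      rw [e]
      exact this
    · have hE' : layerEntangling L = false := by simpa using hE
      have hl0 := hent hE'
      subst hl0
      have := ih hC' (prodOp u' * (rlistOp [] * X)) k
        ⟨u', X, hu', hX, by simp [rlistOp]⟩
      have e : k + entanglingDepth (L :: C) = k + entanglingDepth C := by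
        simp only [entanglingDepth, List.countP_cons, hE']
        simp
      rw [e]
      exact this

theorem circuit_nfc (C : List (List (Gate ι))) (hC : circuitValid C) :
    ∃ (u : ι → M2) (X : Op ι), LocalU u ∧ RFc (entanglingDepth C) X ∧
      circuitOp C = prodOp u * X := by
  have := circuit_nfc_aux C hC 1 0 ⟨fun _ => 1, 1, localU_one, rfl, by rw [prodOp_one, mul_one]⟩
  simpa [circuitOp] using this

/-- entangling depth at most three: three layers of reflections; every reflection of the middle
layer comes from a Toffoli gate, so it occupies at least two qubits. -/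
theorem circuit_nf_three (C : List (List (Gate ι))) (hC : circuitValid C)
    (hd : entanglingDepth C ≤ 3) :
    ∃ (u : ι → M2) (l₃ l₂ l₁ : List (Finset ι × (ι → M2))), LocalU u ∧ rlistValid l₃ ∧
      rlistValid l₂ ∧ rlistValid l₁ ∧ 2 * l₂.length ≤ Fintype.card ι ∧
      circuitOp C = prodOp u * (rlistOp l₃ * (rlistOp l₂ * rlistOp l₁)) := by
  obtain ⟨u, X, hu, hX, heq⟩ := circuit_nfc C hC
  obtain ⟨l₃, X₃, h₃, -, ⟨l₂, X', h₂, hc₂, ⟨l₁, X'', h₁, -, hX'', rfl⟩, rfl⟩, rfl⟩ := hX.mono hd
  have : X'' = 1 := hX''
  subst this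
  exact ⟨u, l₃, l₂, l₁, hu, h₃, h₂, h₁, hc₂, by rw [heq, Matrix.mul_one]⟩

end Vale.Agent.Lib.P368
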