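import Vale.Agent.Lib.P368.CountNF

/-! # Normal form for three explicit entangling layers -/

namespace Vale.Agent.Lib.P368

open Matrix Finset

set_option linter.unusedSectionVars false

variable {ι : Type} [Fintype ι] [DecidableEq ι]

/-- three explicit entangling layers separated by one-qubit gates: the middle layer of reflections
has as many elements as `L₂` has multiqubit gates.  Plan: as `sandwich_nf` in `CountNF.lean`, with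
`seg_nf` (lists of length `0`) for `C₀ .. C₃` and `layer_nf_len` for `L₁, L₂, L₃`. -/
theorem sandwich3_nf_supp (C₀ C₁ C₂ C₃ : List (List (Gate ι))) (L₁ L₂ L₃ : List (Gate ι))
    (hC : circuitValid (C₀ ++ L₁ :: (C₁ ++ L₂ :: (C₂ ++ L₃ :: C₃))))
    (h₀ : multiCount C₀ = 0) (h₁ : multiCount C₁ = 0) (h₂ : multiCount C₂ = 0)
    (h₃ : multiCount C₃ = 0) :
    ∃ (u : ι → M2) (l₃ l₂ l₁ : List (Finset ι × (ι → M2))), LocalU u ∧ rlistValid l₃ ∧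
      rlistValid l₂ ∧ rlistValid l₁ ∧ l₂.length = L₂.countP Gate.isMulti ∧
      (∀ r ∈ l₃, ∃ g ∈ L₃, r.1 = g.supp) ∧
      circuitOp (C₀ ++ L₁ :: (C₁ ++ L₂ :: (C₂ ++ L₃ :: C₃)))
        = prodOp u * (rlistOp l₃ * (rlistOp l₂ * rlistOp l₁)) := by
  have v0 : circuitValid C₀ := fun L hL => hC L (by simp [hL])
  have v1 : layerValid L₁ := hC L₁ (by simp)
  have v2 : circuitValid C₁ := fun L hL => hC L (by simp [hL])
  have v3 : layerValid L₂ := hC L₂ (by simp)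
  have v4 : circuitValid C₂ := fun L hL => hC L (by simp [hL])
  have v5 : layerValid L₃ := hC L₃ (by simp)
  have v6 : circuitValid C₃ := fun L hL => hC L (by simp [hL])
  obtain ⟨u₀, ρ₀, hu₀, -, hlen₀, e₀⟩ := seg_nf C₀ v0 (fun _ => 1) localU_one 1
  have hρ₀ : ρ₀ = [] := List.length_eq_zero_iff.1 (hlen₀.trans h₀)
  subst hρ₀
  obtain ⟨u₁, l₁, hu₁, hl₁, -, -, e₁⟩ := layer_nf_len L₁ v1 u₀ hu₀
  obtain ⟨u₂, ρ₁, hu₂, -, hlen₁, e₂⟩ := seg_nf C₁ v2 u₁ hu₁ (rlistOp l₁)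
  have hρ₁ : ρ₁ = [] := List.length_eq_zero_iff.1 (hlen₁.trans h₁)
  subst hρ₁
  obtain ⟨u₃, l₂, hu₃, hl₂, -, hl₂len, e₃⟩ := layer_nf_len L₂ v3 u₂ hu₂
  obtain ⟨u₄, ρ₂, hu₄, -, hlen₂, e₄⟩ := seg_nf C₂ v4 u₃ hu₃ (rlistOp l₂ * rlistOp l₁)
  have hρ₂ : ρ₂ = [] := List.length_eq_zero_iff.1 (hlen₂.trans h₂)
  subst hρ₂
  obtain ⟨u₅, l₃, hu₅, hl₃, hsupp₃, -, e₅⟩ := layer_nf_len L₃ v5 u₄ hu₄
  obtain ⟨u₆, ρ₃, hu₆, -, hlen₃, e₆⟩ :=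
    seg_nf C₃ v6 u₅ hu₅ (rlistOp l₃ * (rlistOp l₂ * rlistOp l₁))
  have hρ₃ : ρ₃ = [] := List.length_eq_zero_iff.1 (hlen₃.trans h₃)
  subst hρ₃
  refine ⟨u₆, l₃, l₂, l₁, hu₆, hl₃, hl₂, hl₁, hl₂len, hsupp₃, ?_⟩
  have one_nil : rlistOp ([] : List (Finset ι × (ι → M2))) = 1 := by simp [rlistOp]
  rw [one_nil, Matrix.one_mul] at e₀ e₂ e₄ e₆
  unfold circuitOp
  rw [List.foldl_append, List.foldl_cons, List.foldl_append, List.foldl_cons, List.foldl_append,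
    List.foldl_cons]
  have s0 : List.foldl (fun U L => layerOp L * U) (1 : Op ι) C₀ = prodOp u₀ := by
    have := e₀
    rw [prodOp_one, Matrix.mul_one, Matrix.mul_one] at this
    exact this
  rw [s0, e₁, e₂, ← Matrix.mul_assoc, e₃, Matrix.mul_assoc, e₄, ← Matrix.mul_assoc, e₅,
    Matrix.mul_assoc, e₆]

theorem sandwich3_nf (C₀ C₁ C₂ C₃ : List (List (Gate ι))) (L₁ L₂ L₃ : List (Gate ι))
    (hC : circuitValid (C₀ ++ L₁ :: (C₁ ++ L₂ :: (C₂ ++ L₃ :: C₃))))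
    (h₀ : multiCount C₀ = 0) (h₁ : multiCount C₁ = 0) (h₂ : multiCount C₂ = 0)
    (h₃ : multiCount C₃ = 0) :
    ∃ (u : ι → M2) (l₃ l₂ l₁ : List (Finset ι × (ι → M2))), LocalU u ∧ rlistValid l₃ ∧
      rlistValid l₂ ∧ rlistValid l₁ ∧ l₂.length = L₂.countP Gate.isMulti ∧
      circuitOp (C₀ ++ L₁ :: (C₁ ++ L₂ :: (C₂ ++ L₃ :: C₃)))
        = prodOp u * (rlistOp l₃ * (rlistOp l₂ * rlistOp l₁)) := by
  obtain ⟨u, l₃, l₂, l₁, a1, a2, a3, a4, a5, -, a7⟩ :=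
    sandwich3_nf_supp C₀ C₁ C₂ C₃ L₁ L₂ L₃ hC h₀ h₁ h₂ h₃
  exact ⟨u, l₃, l₂, l₁, a1, a2, a3, a4, a5, a7⟩

end Vale.Agent.Lib.P368
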