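import Vale.Agent.Lib.P368.D3.Polar3U

/-! # Polarisation at the output site -/

namespace Vale.Agent.Lib.P368

open Matrix Finset

set_option linter.unusedSectionVars false

variable {ι : Type} [Fintype ι] [DecidableEq ι]

/-- a bound for all product projectors gives twice the bound when the site `o` carries a
rank-one contraction -/
theorem good_bound (inp : ι → Bool) (l₁ ρ : List (Finset ι × (ι → M2))) (K : ℝ)
    (hK : ∀ B : ι → M2, SiteP B → ‖Phi inp (conjBy l₁ (conjBy ρ (prodOp B)))‖ ≤ K)
    (o : ι) (B : ι → M2) (hB : Good o B) :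
    ‖Phi inp (conjBy l₁ (conjBy ρ (prodOp B)))‖ ≤ 2 * K := by
  refine good_bound_update inp l₁ ρ K o B hB.2 fun π hπ => hK _ ?_
  intro j
  by_cases hj : j = o
  · subst hj
    rw [Function.update_self]
    exact Or.inr hπ
  · rw [Function.update_of_ne hj]
    exact hB.1 j hj

end Vale.Agent.Lib.P368
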