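import Vale.Agent.Lib.P368.D3.Diag
import Vale.Agent.Lib.P368.Corr

/-! # Polarisation at one site, keeping the other sites fixed -/

namespace Vale.Agent.Lib.P368

open Matrix Finset

set_option linter.unusedSectionVars false

variable {ι : Type} [Fintype ι] [DecidableEq ι]

theorem prodOp_update_apply (B : ι → M2) (o : ι) (A : M2) (x y : ι → Bool) :
    prodOp (Function.update B o A) x y
      = A (x o) (y o) * ∏ i ∈ Finset.univ.erase o, B i (x i) (y i) := by
  rw [prodOp_apply, ← Finset.mul_prod_erase Finset.univ _ (Finset.mem_univ o),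
    Function.update_self]
  congr 1
  refine Finset.prod_congr rfl fun i hi => ?_
  rw [Function.update_of_ne (Finset.ne_of_mem_erase hi)]

theorem prodOp_update_add (B : ι → M2) (o : ι) (A A' : M2) :
    prodOp (Function.update B o (A + A'))
      = prodOp (Function.update B o A) + prodOp (Function.update B o A') := by
  ext x y
  rw [Matrix.add_apply, prodOp_update_apply, prodOp_update_apply, prodOp_update_apply,
    Matrix.add_apply, add_mul]

theorem prodOp_update_smul (B : ι → M2) (o : ι) (c : ℂ) (A : M2) :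
    prodOp (Function.update B o (c • A)) = c • prodOp (Function.update B o A) := by
  ext x y
  rw [Matrix.smul_apply, prodOp_update_apply, prodOp_update_apply, Matrix.smul_apply,
    smul_eq_mul, smul_eq_mul, mul_assoc]

/-- the functional as a function of the site `o` -/
noncomputable def siteL (inp : ι → Bool) (l₁ ρ : List (Finset ι × (ι → M2))) (B : ι → M2) (o : ι)
    (A : M2) : ℂ :=
  Phi inp (conjBy l₁ (conjBy ρ (prodOp (Function.update B o A))))

theorem siteL_add (inp : ι → Bool) (l₁ ρ : List (Finset ι × (ι → M2))) (B : ι → M2) (o : ι)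
    (A A' : M2) : siteL inp l₁ ρ B o (A + A') = siteL inp l₁ ρ B o A + siteL inp l₁ ρ B o A' := by
  unfold siteL
  rw [prodOp_update_add, conjBy_add, conjBy_add, Phi_add]

theorem siteL_smul (inp : ι → Bool) (l₁ ρ : List (Finset ι × (ι → M2))) (B : ι → M2) (o : ι)
    (c : ℂ) (A : M2) : siteL inp l₁ ρ B o (c • A) = c * siteL inp l₁ ρ B o A := by
  unfold siteL
  rw [prodOp_update_smul, conjBy_smul, conjBy_smul, Phi_smul]

theorem ketbra_self_normalize (z : Bool → ℂ) (hz : nsq z ≠ 0) :
    ∃ π : M2, Pr π ∧ ketbra z z = ((nsq z : ℝ) : ℂ) • π := by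
  have hpos : 0 < nsq z := lt_of_le_of_ne (nsq_nonneg z) (Ne.symm hz)
  set c : ℝ := Real.sqrt (nsq z) with hc
  have hc0 : 0 < c := Real.sqrt_pos.2 hpos
  have hcc : c * c = nsq z := Real.mul_self_sqrt hpos.le
  refine ⟨ketbra (((c⁻¹ : ℝ) : ℂ) • z) (((c⁻¹ : ℝ) : ℂ) • z), ⟨_, ?_, rfl⟩, ?_⟩
  · rw [nsq_smul, Complex.norm_real, Real.norm_of_nonneg (inv_nonneg.2 hc0.le), ← hcc]
    field_simp
  · ext b d
    simp only [ketbra_apply, Matrix.smul_apply, Pi.smul_apply, smul_eq_mul, star_mul',
      Complex.star_def, Complex.conj_ofReal]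
    rw [← hcc]
    push_cast
    have : (c : ℂ) ≠ 0 := by exact_mod_cast hc0.ne'
    field_simp

theorem ketbra_zero_of_nsq (z : Bool → ℂ) (hz : nsq z = 0) : ketbra z z = 0 := by
  have h1 : ‖z false‖ ^ 2 = 0 ∧ ‖z true‖ ^ 2 = 0 := by
    unfold nsq at hz
    constructor <;> nlinarith [sq_nonneg ‖z false‖, sq_nonneg ‖z true‖]
  have hf : z false = 0 := by
    have := pow_eq_zero_iff (two_ne_zero) |>.1 h1.1
    exact norm_eq_zero.1 this
  have ht : z true = 0 := by
    have := pow_eq_zero_iff (two_ne_zero) |>.1 h1.2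
    exact norm_eq_zero.1 this
  ext b d
  cases b <;> simp [ketbra_apply, hf, ht]

theorem polar_identity (x y : Bool → ℂ) :
    (4 : ℂ) • ketbra x y = ketbra (x + y) (x + y) + (-1 : ℂ) • ketbra (x - y) (x - y)
      + Complex.I • ketbra (x + Complex.I • y) (x + Complex.I • y)
      + (-Complex.I) • ketbra (x - Complex.I • y) (x - Complex.I • y) := by
  ext b d
  simp only [ketbra_apply, Matrix.smul_apply, Matrix.add_apply, Pi.add_apply, Pi.sub_apply,
    Pi.smul_apply, smul_eq_mul, star_add, star_sub, star_mul', Complex.star_def, Complex.conj_I]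
  ring_nf
  rw [Complex.I_sq]
  ring

theorem nsq_polar_sum (x y : Bool → ℂ) :
    nsq (x + y) + nsq (x - y) + nsq (x + Complex.I • y) + nsq (x - Complex.I • y)
      = 4 * (nsq x + nsq y) := by
  have par : ∀ p q : ℂ, ‖p + q‖ ^ 2 + ‖p - q‖ ^ 2 = 2 * (‖p‖ ^ 2 + ‖q‖ ^ 2) := by
    intro p q
    have := parallelogram_law_with_norm ℂ p q
    nlinarith
  have hI : ∀ q : ℂ, ‖Complex.I * q‖ = ‖q‖ := by
    intro q
    rw [norm_mul, Complex.norm_I, one_mul]
  unfold nsq
  simp only [Pi.add_apply, Pi.sub_apply, Pi.smul_apply, smul_eq_mul]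
  have a1 := par (x false) (y false)
  have a2 := par (x true) (y true)
  have a3 := par (x false) (Complex.I * y false)
  have a4 := par (x true) (Complex.I * y true)
  rw [hI] at a3 a4
  linarith

/-- a bound for all rank-one projectors at the site `o` gives twice the bound for a rank-one
contraction at the site `o` -/
theorem good_bound_update (inp : ι → Bool) (l₁ ρ : List (Finset ι × (ι → M2))) (K : ℝ)
    (o : ι) (B : ι → M2) (hBo : K1 (B o))
    (hK : ∀ π : M2, Pr π →
      ‖Phi inp (conjBy l₁ (conjBy ρ (prodOp (Function.update B o π))))‖ ≤ K) :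
    ‖Phi inp (conjBy l₁ (conjBy ρ (prodOp B)))‖ ≤ 2 * K := by
  obtain ⟨x, y, hx, hy, hxy⟩ := hBo
  have hK0 : 0 ≤ K := (norm_nonneg _).trans (hK _ (pr_eb false))
  have hz : ∀ z : Bool → ℂ, ‖siteL inp l₁ ρ B o (ketbra z z)‖ ≤ nsq z * K := by
    intro z
    by_cases h0 : nsq z = 0
    · have : siteL inp l₁ ρ B o (ketbra z z) = 0 := by
        rw [ketbra_zero_of_nsq z h0]
        have := siteL_smul inp l₁ ρ B o 0 0
        simpa using this
      rw [this, h0]
      simp
    · obtain ⟨π, hπ, e⟩ := ketbra_self_normalize z h0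
      rw [e, siteL_smul, norm_mul, Complex.norm_real, Real.norm_of_nonneg (nsq_nonneg z)]
      exact mul_le_mul_of_nonneg_left (hK π hπ) (nsq_nonneg z)
  have hB : B = Function.update B o (ketbra x y) := by
    rw [← hxy, Function.update_eq_self]
  have e0 : Phi inp (conjBy l₁ (conjBy ρ (prodOp B))) = siteL inp l₁ ρ B o (ketbra x y) := by
    unfold siteL
    rw [← hB]
  have e1 : 4 * siteL inp l₁ ρ B o (ketbra x y)
      = siteL inp l₁ ρ B o (ketbra (x + y) (x + y))
        + (-1) * siteL inp l₁ ρ B o (ketbra (x - y) (x - y))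
        + Complex.I * siteL inp l₁ ρ B o (ketbra (x + Complex.I • y) (x + Complex.I • y))
        + (-Complex.I) * siteL inp l₁ ρ B o (ketbra (x - Complex.I • y) (x - Complex.I • y)) := by
    rw [← siteL_smul, polar_identity, siteL_add, siteL_add, siteL_add, siteL_smul, siteL_smul,
      siteL_smul]
  have e2 : 4 * ‖siteL inp l₁ ρ B o (ketbra x y)‖ ≤ 4 * (nsq x + nsq y) * K := by
    have : 4 * ‖siteL inp l₁ ρ B o (ketbra x y)‖ = ‖4 * siteL inp l₁ ρ B o (ketbra x y)‖ := by
      rw [norm_mul]
      simp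
    rw [this, e1, ← nsq_polar_sum x y]
    refine (norm_add_le _ _).trans ?_
    refine (add_le_add (norm_add_le _ _) le_rfl).trans ?_
    refine (add_le_add (add_le_add (norm_add_le _ _) le_rfl) le_rfl).trans ?_
    simp only [norm_mul, norm_neg, norm_one, Complex.norm_I, one_mul]
    have b1 := hz (x + y)
    have b2 := hz (x - y)
    have b3 := hz (x + Complex.I • y)
    have b4 := hz (x - Complex.I • y)
    linarith
  rw [e0]
  nlinarith

end Vale.Agent.Lib.P368
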