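import Vale.Agent.Lib.P368.D3.Diag

/-! # Only the gates of the middle layer that see a nontrivial site cost a factor nine -/

namespace Vale.Agent.Lib.P368

open Matrix Finset

set_option linter.unusedSectionVars false

variable {ι : Type} [Fintype ι] [DecidableEq ι]

/-- a layer `ρ` above the layer `l₁`: the gates outside `T` only see identity sites.

Plan (compare the proof of `seq_bound` in `Count.lean`): `classical`, induction on `ρ`
generalizing `B` and `T`.  `nil`: `layer1_bound_strong`.  `r :: l`, `conjBy_cons`:
if `r ∉ T` then `refl_commute` removes `r`, same `T`.  If `r ∈ T`: `refl_conj_prodOp`, four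
product operators (`Site1.left`, `Site1.right`), `norm_four_le`, induction hypothesis with
`T.erase r`: for `s ∈ l` with `s ∉ T.erase r`, either `s ∉ T` (then `B j = 1` on `s.1` and
`r.2 j = 1` there because `r.1` and `s.1` are disjoint), or `s = r` (then `r.1` is disjoint from
itself, hence empty). -/
theorem seq_bound_finset (inp : ι → Bool) (l₁ : List (Finset ι × (ι → M2))) (h₁ : rlistValid l₁)
    (ρ : List (Finset ι × (ι → M2))) (hρ : rlistValid ρ) (B : ι → M2) (hB : Site1 B)
    (T : Finset (Finset ι × (ι → M2))) (hT : ∀ r ∈ ρ, r ∉ T → ∀ j ∈ r.1, B j = 1) :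
    ‖Phi inp (conjBy l₁ (conjBy ρ (prodOp B)))‖ ≤ 9 ^ T.card * gam ^ numInp inp := by
  classical
  induction ρ generalizing B T with
  | nil =>
    rw [conjBy_nil]
    have h := layer1_bound_strong inp B hB l₁ h₁
    have hg : 0 ≤ gam ^ numInp inp := by have := gam_pos; positivity
    have h9 : (1 : ℝ) ≤ 9 ^ T.card := one_le_pow₀ (by norm_num)
    calc _ ≤ gam ^ numInp inp := h
      _ = 1 * gam ^ numInp inp := (one_mul _).symm
      _ ≤ _ := mul_le_mul_of_nonneg_right h9 hg
  | cons r l ih =>
    have hr := hρ.1 r List.mem_cons_self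
    have hl : rlistValid l :=
      ⟨fun s hs => hρ.1 s (List.mem_cons_of_mem _ hs), (List.pairwise_cons.1 hρ.2).2⟩
    have hd : ∀ s ∈ l, Disjoint r.1 s.1 := (List.pairwise_cons.1 hρ.2).1
    rw [conjBy_cons hr]
    by_cases hrT : r ∈ T
    · rw [refl_conj_prodOp]
      simp only [conjBy_add, conjBy_sub, conjBy_smul, Phi_add, Phi_sub, Phi_smul]
      have key : ∀ s ∈ l, s ∉ T.erase r → ∀ j ∈ s.1, B j = 1 ∧ r.2 j = 1 := by
        intro s hs hsT j hj
        have hjr : j ∉ r.1 := fun h => Finset.disjoint_left.1 (hd s hs) h hj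
        refine ⟨?_, hr.2 j hjr⟩
        by_cases hsr : s = r
        · subst hsr; exact absurd hj hjr
        · have hsT' : s ∉ T := fun h => hsT (Finset.mem_erase.2 ⟨hsr, h⟩)
          exact hT s (List.mem_cons_of_mem _ hs) hsT' j hj
      have b0 := ih hl B hB (T.erase r) (fun s hs h j hj => (key s hs h j hj).1)
      have b1 := ih hl _ (Site1.left hr hB) (T.erase r) (fun s hs h j hj => by
        simp only [(key s hs h j hj).1, (key s hs h j hj).2, mul_one])
      have b2 := ih hl _ (Site1.right hr hB) (T.erase r) (fun s hs h j hj => by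
        simp only [(key s hs h j hj).1, (key s hs h j hj).2, mul_one])
      have b3 := ih hl _ (Site1.right hr (Site1.left hr hB)) (T.erase r) (fun s hs h j hj => by
        simp only [(key s hs h j hj).1, (key s hs h j hj).2, mul_one])
      have h4 := norm_four_le b0 b1 b2 b3
      have hc : T.card = (T.erase r).card + 1 := (Finset.card_erase_add_one hrT).symm
      rw [hc, pow_succ]
      calc _ ≤ 9 * (9 ^ (T.erase r).card * gam ^ numInp inp) := h4
        _ = _ := by ring
    · rw [refl_commute hr (hT r List.mem_cons_self hrT)]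
      exact ih hl B hB T (fun s hs => hT s (List.mem_cons_of_mem _ hs))

end Vale.Agent.Lib.P368
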