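import Vale.Agent.Lib.P368.D3.Top3

/-! # Three layers of reflections: the fan-in of the last gate -/

namespace Vale.Agent.Lib.P368

open Matrix Finset

set_option linter.unusedSectionVars false

section general

variable {ι : Type} [Fintype ι] [DecidableEq ι]

/-- polarisation at the site `o`, keeping track of the support -/
theorem good_bound_supp (inp : ι → Bool) (l₁ ρ : List (Finset ι × (ι → M2))) (K : ℝ)
    (S : Finset ι)
    (hK : ∀ B : ι → M2, SiteP B → (∀ j, j ∉ S → B j = 1) →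
      ‖Phi inp (conjBy l₁ (conjBy ρ (prodOp B)))‖ ≤ K)
    (o : ι) (ho : o ∈ S) (B : ι → M2) (hB : Good o B) (hBS : ∀ j, j ∉ S → B j = 1) :
    ‖Phi inp (conjBy l₁ (conjBy ρ (prodOp B)))‖ ≤ 2 * K := by
  refine good_bound_update inp l₁ ρ K o B hB.2 fun π hπ => hK _ ?_ ?_
  · intro j
    by_cases hj : j = o
    · subst hj
      rw [Function.update_self]
      exact Or.inr hπ
    · rw [Function.update_of_ne hj]
      exact hB.1 j hj
  · intro j hj
    have hjo : j ≠ o := fun h => hj (h ▸ ho)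
    rw [Function.update_of_ne hjo]
    exact hBS j hj

/-- only the gate of the last layer that contains the output qubit matters; its support lies
in `S` -/
theorem top3_bound_supp (inp : ι → Bool) (o : ι) (π : M2) (hπ : Pr π)
    (l₁ ρ l₃ : List (Finset ι × (ι → M2))) (h₃ : rlistValid l₃) (K : ℝ) (hK0 : 0 ≤ K)
    (S : Finset ι) (ho : o ∈ S) (hS : ∀ r ∈ l₃, o ∈ r.1 → r.1 ⊆ S)
    (hK : ∀ B : ι → M2, SiteP B → (∀ j, j ∉ S → B j = 1) →
      ‖Phi inp (conjBy l₁ (conjBy ρ (prodOp B)))‖ ≤ K) :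
    ‖Phi inp (conjBy l₁ (conjBy ρ (conjBy l₃ (prodOp (atSite o π)))))‖ ≤ 18 * K := by
  have hgood0 : Good o (atSite o π) :=
    ⟨fun j hj => Or.inl (atSite_ne o π hj), by rw [atSite_self]; exact hπ.k1⟩
  have hs0 : ∀ j, j ∉ S → atSite o π j = 1 := fun j hj => atSite_ne o π (fun h => hj (h ▸ ho))
  induction l₃ with
  | nil =>
    rw [conjBy_nil]
    have := good_bound_supp inp l₁ ρ K S hK o ho _ hgood0 hs0
    linarith
  | cons r l ih =>
    have hr := h₃.1 r List.mem_cons_self
    have hl : rlistValid l :=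
      ⟨fun s hs => h₃.1 s (List.mem_cons_of_mem _ hs), (List.pairwise_cons.1 h₃.2).2⟩
    have hd : ∀ s ∈ l, Disjoint r.1 s.1 := (List.pairwise_cons.1 h₃.2).1
    rw [conjBy_cons hr]
    by_cases hor : o ∈ r.1
    · have hrS : r.1 ⊆ S := hS r List.mem_cons_self hor
      have hr1 : ∀ j, j ∉ S → r.2 j = 1 := fun j hj => hr.2 j (fun h => hj (hrS h))
      have hone : ∀ s ∈ l, ∀ j ∈ s.1, r.2 j = 1 ∧ atSite o π j = 1 := by
        intro s hs j hj
        have hjr : j ∉ r.1 := fun h => Finset.disjoint_left.1 (hd s hs) h hj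
        exact ⟨hr.2 j hjr, atSite_ne o π (fun h => hjr (h ▸ hor))⟩
      rw [refl_conj_prodOp, conjBy_add, conjBy_sub, conjBy_sub, conjBy_smul, conjBy_smul,
        conjBy_smul, conj_fix l hl.1 _ (fun s hs j hj => (hone s hs j hj).2),
        conj_fix l hl.1 (fun j => r.2 j * atSite o π j)
          (fun s hs j hj => by simp only [(hone s hs j hj).1, (hone s hs j hj).2, mul_one]),
        conj_fix l hl.1 (fun j => atSite o π j * r.2 j)
          (fun s hs j hj => by simp only [(hone s hs j hj).1, (hone s hs j hj).2, mul_one]),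
        conj_fix l hl.1 (fun j => r.2 j * atSite o π j * r.2 j)
          (fun s hs j hj => by simp only [(hone s hs j hj).1, (hone s hs j hj).2, mul_one])]
      simp only [conjBy_add, conjBy_sub, conjBy_smul, Phi_add, Phi_sub, Phi_smul]
      have hq : ∀ j, r.2 j = 1 ∨ Pr (r.2 j) := hr.site
      have g1 : Good o (fun j => r.2 j * atSite o π j) :=
        ⟨fun j hj => by simp only [atSite_ne o π hj, mul_one]; exact hq j,
          by simp only [atSite_self]; exact (hr.1 o hor).k1.mul hπ.k1⟩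
      have g2 : Good o (fun j => atSite o π j * r.2 j) :=
        ⟨fun j hj => by simp only [atSite_ne o π hj, one_mul]; exact hq j,
          by simp only [atSite_self]; exact hπ.k1.mul (hr.1 o hor).k1⟩
      have g3 : Good o (fun j => r.2 j * atSite o π j * r.2 j) :=
        ⟨fun j hj => by simp only [atSite_ne o π hj, mul_one, hr.idem]; exact hq j,
          by simp only [atSite_self]; exact ((hr.1 o hor).k1.mul hπ.k1).mul (hr.1 o hor).k1⟩
      have := norm_four_le (good_bound_supp inp l₁ ρ K S hK o ho _ hgood0 hs0)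
        (good_bound_supp inp l₁ ρ K S hK o ho _ g1
          (fun j hj => by simp only [hr1 j hj, hs0 j hj, mul_one]))
        (good_bound_supp inp l₁ ρ K S hK o ho _ g2
          (fun j hj => by simp only [hr1 j hj, hs0 j hj, mul_one]))
        (good_bound_supp inp l₁ ρ K S hK o ho _ g3
          (fun j hj => by simp only [hr1 j hj, hs0 j hj, mul_one]))
      linarith
    · rw [refl_commute hr (fun j hj => atSite_ne o π (fun h => hor (h ▸ hj)))]
      exact ih hl (fun s hs => hS s (List.mem_cons_of_mem _ hs))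

theorem heis3_bound_supp (inp : ι → Bool) (o : ι) (b : Bool) (u : ι → M2)
    (l₃ ρ l₁ : List (Finset ι × (ι → M2))) (hu : LocalU u) (h₃ : rlistValid l₃) (K : ℝ)
    (hK0 : 0 ≤ K) (S : Finset ι) (ho : o ∈ S) (hS : ∀ r ∈ l₃, o ∈ r.1 → r.1 ⊆ S)
    (hK : ∀ B : ι → M2, SiteP B → (∀ j, j ∉ S → B j = 1) →
      ‖Phi inp (conjBy l₁ (conjBy ρ (prodOp B)))‖ ≤ K) :
    ‖Phi inp ((prodOp u * (rlistOp l₃ * (rlistOp ρ * rlistOp l₁)))ᴴ
      * prodOp (atSite o (ketbra (eb b) (eb b)))
      * (prodOp u * (rlistOp l₃ * (rlistOp ρ * rlistOp l₁))))‖ ≤ 18 * K := by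
  have e1 : (prodOp u)ᴴ * prodOp (atSite o (ketbra (eb b) (eb b))) * prodOp u
      = prodOp (atSite o ((u o)ᴴ * ketbra (eb b) (eb b) * u o)) := by
    rw [prodOp_conjTranspose, prodOp_mul, prodOp_mul]
    congr 1
    funext j
    by_cases hj : j = o
    · subst hj
      rw [atSite_self, atSite_self]
    · rw [atSite_ne _ _ hj, atSite_ne _ _ hj, Matrix.mul_one, hu.star_mul j]
  have e2 : (prodOp u * (rlistOp l₃ * (rlistOp ρ * rlistOp l₁)))ᴴ
      * prodOp (atSite o (ketbra (eb b) (eb b)))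
      * (prodOp u * (rlistOp l₃ * (rlistOp ρ * rlistOp l₁)))
      = conjBy l₁ (conjBy ρ (conjBy l₃
        (prodOp (atSite o ((u o)ᴴ * ketbra (eb b) (eb b) * u o))))) := by
    rw [← e1]
    simp only [conjBy, Matrix.conjTranspose_mul, Matrix.mul_assoc]
  rw [e2]
  exact top3_bound_supp inp o _ ((pr_eb b).conj (hu o)) l₁ ρ l₃ h₃ K hK0 S ho hS hK

end general

/-- the bound for a circuit in normal form: `m` bounds the fan-in of the gate of the last layer
that acts on the output qubit -/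
theorem nf3_bound_supp {n a : ℕ} (C : List (List (Gate (Fin n ⊕ Fin a)))) (o : Fin n ⊕ Fin a)
    (u : Fin n ⊕ Fin a → M2) (l₃ l₂ l₁ : List (Finset (Fin n ⊕ Fin a) × (Fin n ⊕ Fin a → M2)))
    (hu : LocalU u) (h₃ : rlistValid l₃) (h₂ : rlistValid l₂) (h₁ : rlistValid l₁)
    (heq : circuitOp C = prodOp u * (rlistOp l₃ * (rlistOp l₂ * rlistOp l₁)))
    (m : ℝ) (hm : 1 ≤ m) (hfan : ∀ r ∈ l₃, o ∈ r.1 → (r.1.card : ℝ) ≤ m) :
    |parityCorrelation C o| ≤ 144 / (1 + Real.sqrt (2 / m)) ^ (n / 22) := by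
  classical
  set inp : Fin n ⊕ Fin a → Bool := fun j => Sum.isLeft j with hinp
  set D : ℝ := (1 + Real.sqrt (2 / m)) ^ (n / 22) with hD
  have hD0 : 0 < D := by positivity
  -- the support of the last gate on the output qubit
  obtain ⟨S, hoS, hS, hcard⟩ : ∃ S : Finset (Fin n ⊕ Fin a), o ∈ S ∧
      (∀ r ∈ l₃, o ∈ r.1 → r.1 ⊆ S) ∧ (S.card : ℝ) ≤ m := by
    by_cases hex : ∃ r ∈ l₃, o ∈ r.1
    · obtain ⟨r, hr, hor⟩ := hex
      refine ⟨r.1, hor, ?_, hfan r hr hor⟩
      intro s hs hos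
      by_cases hrs : s = r
      · rw [hrs]
      · have : Std.Symm (fun p q : Finset (Fin n ⊕ Fin a) × (Fin n ⊕ Fin a → M2) =>
            Disjoint p.1 q.1) := ⟨fun _ _ hab => hab.symm⟩
        have hd : Disjoint s.1 r.1 := h₃.2.forall hs hr hrs
        exact absurd hor (Finset.disjoint_left.1 hd hos)
    · refine ⟨{o}, Finset.mem_singleton_self o, ?_, by simpa using hm⟩
      intro r hr hor
      exact absurd ⟨r, hr, hor⟩ hex
  have hK : ∀ B : Fin n ⊕ Fin a → M2, SiteP B → (∀ j, j ∉ S → B j = 1) →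
      ‖Phi inp (conjBy l₁ (conjBy l₂ (prodOp B)))‖ ≤ 4 / D := by
    intro B hB hBS
    have h := core3_supp inp l₁ l₂ h₁ h₂ B hB S hBS m hm hcard (n / 22)
    rw [numInp_sum] at h
    have h39 := pow39_gam n
    rw [le_div_iff₀ hD0]
    linarith
  have h := corr_eq C o
  rw [heq] at h
  have b0 := heis3_bound_supp inp o false u l₃ l₂ l₁ hu h₃ (4 / D) (by positivity) S hoS hS hK
  have b1 := heis3_bound_supp inp o true u l₃ l₂ l₁ hu h₃ (4 / D) (by positivity) S hoS hS hK
  have : |parityCorrelation C o| = ‖((parityCorrelation C o : ℝ) : ℂ)‖ := by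
    rw [Complex.norm_real, Real.norm_eq_abs]
  rw [this, h]
  refine (norm_sub_le _ _).trans ?_
  have e : 144 / D = 18 * (4 / D) + 18 * (4 / D) := by ring
  rw [e]
  exact add_le_add b0 b1

end Vale.Agent.Lib.P368
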